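import Vale.Agent.P032.H630.Zone
import Vale.Agent.P032.S5.H529.Ray

/-!
# P032: unit pairs of a two-pair centre and an arbitrary four-coloured point

`z` with `DPt T z a b c d`, `v ∈ S(z)` with four colours, nothing assumed on `S(v)`.

* `Irr.germ_beta4` : `T v = T z`: exact `ab` on one half branch of `S(z)` at `v`, exact `cd` on the
  other one; `Irr.beta4_dpt` : `v` is a two-pair centre with crossed pairs.
* `Irr.germ_delta4` : `T v = {a, b, c, e}`: `S(v)` has at `z` an exact `xc`-arc on one half branch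
  (`x ∈ {a, b}`) and the colour `d` on the other one, and one half branch of `S(z)` at `v` carries `e`
  and misses `x`.
* `Mx.swept_hb` : colours carried by a half branch of `S(v)` at `z` are absent at all points `w` with
  `z` and the end of the half branch on different sides of `S(w)`.
-/

open Set Filter Topology Metric

noncomputable section

namespace Vale.Agent.P032.Six

variable {U : Fin 6 → Set ℂ} {T : ℂ → Set (Fin 6)}

theorem ev_small {δ : ℝ} (hδ : 0 < δ) : ∀ᶠ t : ℝ in 𝓝[>] 0, 0 < t ∧ t < δ := by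
  filter_upwards [self_mem_nhdsWithin, mem_nhdsWithin_of_mem_nhds (Iio_mem_nhds hδ)] with r h1 h2
  exact ⟨h1, h2⟩

/-- a half branch inside `T z` near which there are no exact `cd`-arcs is an exact `ab`-arc -/
theorem Irr.half_exact (h : Irr U T) {z v : ℂ} {a b c d : Fin 6} (hz : DPt T z a b c d)
    (hv : dist v z = 1) {τ : ℝ} (hτ : τ = 1 ∨ τ = -1)
    (hT : ∀ᶠ t : ℝ in 𝓝[>] 0, T (hb z v τ t) ⊆ T z)
    (hno : ∀ᶠ t : ℝ in 𝓝[>] 0, ¬ Arc T z (hb z v τ t) {c, d}) :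
    ∀ᶠ t : ℝ in 𝓝[>] 0, T (hb z v τ t) = {a, b} := by
  have haz : a ∈ T z := by rw [hz.pal]; simp
  have hbz : b ∈ T z := by rw [hz.pal]; simp
  obtain ⟨σ, hσ⟩ := h.exists_ori hz hv
  have hall := hT.and (hno.and (((tendsto_hb z v τ).eventually hσ.nhd).and (ev_small one_pos)))
  obtain ⟨δ, hδ, hsub⟩ := mem_nhdsGT_iff_exists_Ioo_subset.1 hall
  rw [mem_Ioi] at hδ
  have hτ2 : τ * τ = 1 := by rcases hτ with rfl | rfl <;> norm_num
  -- exact arcs in every interval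
  have hden : ∀ s1 s2 : ℝ, 0 < s1 → s1 < s2 → s2 < δ → ∃ t, s1 < t ∧ t < s2 ∧
      Arc T z (hb z v τ t) {a, b} := by
    intro s1 s2 h1 h2 h3
    obtain ⟨s, hs, hc⟩ := h.const_an z v (O := (fun s : ℝ => τ * s) ⁻¹' Ioo s1 s2)
      (isOpen_Ioo.preimage (continuous_const.mul continuous_id))
      ⟨τ * ((s1 + s2) / 2), by
        show τ * (τ * ((s1 + s2) / 2)) ∈ Ioo s1 s2
        rw [← mul_assoc, hτ2, one_mul]; exact ⟨by linarith, by linarith⟩⟩
    have hs' : τ * s ∈ Ioo s1 s2 := hs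
    have e : hb z v τ (τ * s) = an z v s := by
      rw [hb_eq_an, ← mul_assoc, hτ2, one_mul]
    have hA : Arc T z (an z v s) (T (an z v s)) := (arc_an hv s).1 hc
    have hm : τ * s ∈ Ioo 0 δ := ⟨by linarith [hs'.1], by linarith [hs'.2]⟩
    obtain ⟨m1, m2, -, -⟩ := hsub hm
    rw [e] at m1 m2
    refine ⟨τ * s, hs'.1, hs'.2, ?_⟩
    rw [e]
    rcases h.twoPairs hz (an z v s) (dist_an hv s)
      (by filter_upwards [hA.2] with q hq using hq) m1 with h4 | h4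
    · rwa [h4] at hA
    · rw [h4] at hA; exact absurd hA m2
  have hsub' : ∀ᶠ t : ℝ in 𝓝[>] 0, T (hb z v τ t) ⊆ {a, b} := by
    filter_upwards [Ioo_mem_nhdsGT hδ] with t ht
    obtain ⟨m1, -, -, -⟩ := hsub ht
    obtain ⟨t1, h1, h2, A1⟩ := hden (t / 2) t (by linarith [ht.1]) (by linarith [ht.1]) ht.2
    obtain ⟨t2, h3, h4, A2⟩ := hden t ((t + δ) / 2) ht.1 (by linarith [ht.2]) (by linarith [ht.2])
    have p1 : 0 < t1 := by linarith [ht.1]
    have p2 : t2 < δ := by linarith [ht.2]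
    obtain ⟨-, -, o1, l1⟩ := hsub (⟨p1, by linarith [ht.2]⟩ : t1 ∈ Ioo 0 δ)
    obtain ⟨-, -, o2, l2⟩ := hsub (⟨by linarith, p2⟩ : t2 ∈ Ioo 0 δ)
    have hπ := Real.pi_gt_three
    have key : c ∉ Pal U (hb z v τ t) ∧ d ∉ Pal U (hb z v τ t) := by
      rw [hb_eq_an] at A1 A2 o1 o2 ⊢
      rcases hτ with rfl | rfl
      · exact h.zone_an hz hv (r1 := 1 * t1) (s := 1 * t) (r2 := 1 * t2) (by linarith)
          (by linarith) (by linarith [l1.2, l2.2]) (by linarith [l1.2, l2.2]) A1 A2 o1 o2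
      · exact h.zone_an hz hv (r1 := -1 * t2) (s := -1 * t) (r2 := -1 * t1) (by linarith)
          (by linarith) (by linarith [l1.2, l2.2]) (by linarith [l1.2, l2.2]) A2 A1 o2 o1
    intro i hi
    have h5 := m1 hi
    rw [hz.pal] at h5
    rcases h5 with rfl | rfl | rfl | h6
    · simp
    · simp
    · exact absurd (h.sub _ hi) key.1
    · rw [mem_singleton_iff] at h6
      subst h6
      exact absurd (h.sub _ hi) key.2
  exact h.hb_exact hv hsub' (h.sub _ haz) (h.sub _ hbz)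

/-- exact half branch: exact arcs accumulate -/
theorem Irr.arcs_of_exact (h : Irr U T) {z v : ℂ} {a b : Fin 6} (hab : a ≠ b) (ha : a ∈ T z)
    (hb' : b ∈ T z) (hv : dist v z = 1) {τ : ℝ}
    (hx : ∀ᶠ t : ℝ in 𝓝[>] 0, T (hb z v τ t) = {a, b}) :
    ∀ᶠ t : ℝ in 𝓝[>] 0, Arc T z (hb z v τ t) {a, b} := by
  filter_upwards [hx] with t ht
  exact h.arc_of_eq hab ha hb' (dist_hb hv τ t) ht

/-- **BETA, arbitrary second point.** -/
theorem Irr.germ_beta4 (h : Irr U T) {z v : ℂ} {a b c d : Fin 6} (hz : DPt T z a b c d)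
    (hv : dist v z = 1) (hT : T v = T z) :
    ∃ τ : ℝ, (τ = 1 ∨ τ = -1) ∧ (∀ᶠ t : ℝ in 𝓝[>] 0, T (hb z v τ t) = {a, b}) ∧
      ∀ᶠ t : ℝ in 𝓝[>] 0, T (hb z v (-τ) t) = {c, d} := by
  have haz : a ∈ T z := by rw [hz.pal]; simp
  have hbz : b ∈ T z := by rw [hz.pal]; simp
  have hcz : c ∈ T z := by rw [hz.pal]; simp
  have hdz : d ∈ T z := by rw [hz.pal]; simp
  have hs : ∀ τ : ℝ, ∀ᶠ t : ℝ in 𝓝[>] 0, T (hb z v τ t) ⊆ T z := by
    intro τ
    filter_upwards [(tendsto_hb z v τ).eventually (h.nhd v)] with t ht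
    rwa [hT] at ht
  have hex : ∀ τ : ℝ, (τ = 1 ∨ τ = -1) → (∀ᶠ t : ℝ in 𝓝[>] 0, T (hb z v τ t) = {a, b}) ∨
      ∀ᶠ t : ℝ in 𝓝[>] 0, T (hb z v τ t) = {c, d} := by
    intro τ hτ
    rcases h.half_zone hz hv hτ with h1 | h1
    · exact Or.inr (h.half_exact hz.swap hv hτ (hs τ) h1)
    · exact Or.inl (h.half_exact hz hv hτ (hs τ) h1)
  rcases hex 1 (Or.inl rfl) with h1 | h1 <;> rcases hex (-1) (Or.inr rfl) with h2 | h2
  · exfalso
    refine (h.both_sides hz hv (h.arcs_of_exact hz.ab haz hbz hv h1).frequently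
      (h.arcs_of_exact hz.ab haz hbz hv h2).frequently).1 (h.sub v ?_)
    rw [hT]; exact hcz
  · exact ⟨1, Or.inl rfl, h1, h2⟩
  · exact ⟨-1, Or.inr rfl, h2, by rw [neg_neg]; exact h1⟩
  · exfalso
    refine (h.both_sides hz.swap hv (h.arcs_of_exact hz.cd hcz hdz hv h1).frequently
      (h.arcs_of_exact hz.cd hcz hdz hv h2).frequently).1 (h.sub v ?_)
    rw [hT]; exact haz

/-- **BETA**: the second point is a two-pair centre with crossed pairs -/
theorem Irr.beta4_dpt (h : Irr U T) {z v : ℂ} {a b c d : Fin 6} (hz : DPt T z a b c d)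
    (hv : dist v z = 1) (hT : T v = T z) : DPt T v a c b d ∨ DPt T v a d b c := by
  have haz : a ∈ T v := by rw [hT, hz.pal]; simp
  have hbz : b ∈ T v := by rw [hT, hz.pal]; simp
  have hcz : c ∈ T v := by rw [hT, hz.pal]; simp
  have hdz : d ∈ T v := by rw [hT, hz.pal]; simp
  have hzv : dist z v = 1 := by rw [dist_comm]; exact hv
  have arc : ∀ {x y : Fin 6} {τ : ℝ}, x ≠ y → x ∈ T v → y ∈ T v →
      (∀ᶠ t : ℝ in 𝓝[>] 0, T (hb v z τ t) ⊆ {x, y}) → ∃ p, Arc T v p {x, y} := by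
    intro x y τ hxy hx hy h1
    obtain ⟨t, ht⟩ := (h.arcs_of_exact hxy hx hy hzv
      (h.hb_exact hzv h1 (h.sub _ hx) (h.sub _ hy))).exists
    exact ⟨_, ht⟩
  have pal1 : T v = {a, c, b, d} := by
    rw [hT, hz.pal]; ext i; simp only [mem_insert_iff, mem_singleton_iff]; tauto
  have pal2 : T v = {a, d, b, c} := by
    rw [hT, hz.pal]; ext i; simp only [mem_insert_iff, mem_singleton_iff]; tauto
  rcases h.germ_branch hz hzv with h1 | h1 | h1 | h1
  · exact Or.inl ⟨pal1, hz.ab, hz.ad, hz.bc.symm, hz.cd, hz.ac, hz.bd, arc hz.ac haz hcz h1.1,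
      arc hz.bd hbz hdz h1.2⟩
  · exact Or.inr ⟨pal2, hz.ab, hz.ac, hz.bd.symm, hz.cd.symm, hz.ad, hz.bc,
      arc hz.ad haz hdz h1.1, arc hz.bc hbz hcz h1.2⟩
  · exact Or.inr ⟨pal2, hz.ab, hz.ac, hz.bd.symm, hz.cd.symm, hz.ad, hz.bc,
      arc hz.ad haz hdz h1.2, arc hz.bc hbz hcz h1.1⟩
  · exact Or.inl ⟨pal1, hz.ab, hz.ad, hz.bc.symm, hz.cd, hz.ac, hz.bd, arc hz.ac haz hcz h1.2,
      arc hz.bd hbz hdz h1.1⟩

/-- **Swept nappe**: the colour `i` on the half branch `τ` of `S(v)` at `z` up to the parameter `t0`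
is absent at every point `w` such that the ends are on different sides of `S(w)`. -/
theorem Mx.swept_hb (h : Mx U) {z v w : ℂ} {i : Fin 6} {τ t0 : ℝ} (ht0 : 0 < t0)
    (hz : i ∈ Pal U z) (hJ : ∀ t ∈ Ioc 0 t0, i ∈ Pal U (hb v z τ t))
    (hw : (dist w z < 1 ∧ 1 < dist w (hb v z τ t0)) ∨ (1 < dist w z ∧ dist w (hb v z τ t0) < 1)) :
    i ∉ Pal U w := by
  have hc : Continuous (hb v z τ) :=
    continuous_const.add (continuous_const.mul (continuous_cis.comp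
      (continuous_const.mul continuous_id)))
  have h0 : hb v z τ 0 = z := by rw [hb_eq_an, mul_zero, an_zero]
  have hQ : IsPreconnected (hb v z τ '' Icc 0 t0) := isPreconnected_Icc.image _ hc.continuousOn
  have hsub : hb v z τ '' Icc 0 t0 ⊆ closure (U i) := by
    rintro _ ⟨t, ht, rfl⟩
    rcases ht.1.eq_or_lt with h1 | h1
    · rw [← h1, h0]; exact hz
    · exact hJ t ⟨h1, ht.2⟩
  have m0 : z ∈ hb v z τ '' Icc 0 t0 := ⟨0, ⟨le_rfl, ht0.le⟩, h0⟩
  have m1 : hb v z τ t0 ∈ hb v z τ '' Icc 0 t0 := ⟨t0, ⟨ht0.le, le_rfl⟩, rfl⟩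
  rcases hw with ⟨h1, h2⟩ | ⟨h1, h2⟩
  · exact h.wlemma hQ hsub m0 m1 (by rwa [dist_comm]) (by rwa [dist_comm])
  · exact h.wlemma hQ hsub m1 m0 (by rwa [dist_comm]) (by rwa [dist_comm])

/-- the two sides of a point `p` of `S(z)`: on one side only the colour `e` -/
theorem Irr.mem_of_side (h : Irr U T) {z p : ℂ} {e : Fin 6} (hp : dist p z = 1)
    (hs : (∀ᶠ y in 𝓝 p, 1 < dist y z → T y ⊆ {e}) ∨ ∀ᶠ y in 𝓝 p, dist y z < 1 → T y ⊆ {e}) :
    e ∈ T p := by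
  by_contra hcon
  have hn : ∀ᶠ y in 𝓝 p, e ∉ T y := (h.closed e).isOpen_compl.mem_nhds hcon
  rcases hs with hs | hs
  · obtain ⟨y, hy, hy1, hy2⟩ := (exists_out hp (hs.and hn)).1
    obtain ⟨i, hi⟩ := h.ne y
    have h1 := hy1 hy hi
    rw [mem_singleton_iff] at h1
    exact hy2 (h1 ▸ hi)
  · obtain ⟨y, hy, hy1, hy2⟩ := (exists_out hp (hs.and hn)).2
    obtain ⟨i, hi⟩ := h.ne y
    have h1 := hy1 hy hi
    rw [mem_singleton_iff] at h1
    exact hy2 (h1 ▸ hi)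

/-- a colour absent on both sides of the circle is absent -/
theorem Mx.notMem_of_sides (h : Mx U) {z p : ℂ} {i : Fin 6}
    (hs : ∀ᶠ y in 𝓝 p, dist y z ≠ 1 → i ∉ Pal U y) : i ∉ Pal U p := by
  intro hi
  obtain ⟨g, ⟨hgU, hg⟩, hgz⟩ := exists_off (h.isOpen i) (z := z) hi hs
  exact hg hgz (subset_closure hgU)

theorem sg_hb {z v : ℂ} (hv : dist v z = 1) (τ t : ℝ) :
    sg z v (hb v z τ t) = Real.sin (τ * t) := by
  have hn : (v - z).re ^ 2 + (v - z).im ^ 2 = 1 := ip_sq (by rw [← dist_eq_norm]; exact hv)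
  unfold sg hb cr
  simp only [Complex.sub_re, Complex.sub_im] at hn
  simp only [Complex.sub_re, Complex.sub_im, Complex.add_re, Complex.add_im, Complex.mul_re,
    Complex.mul_im, cis_re, cis_im]
  linear_combination (Real.sin (τ * t)) * hn

/-- **The free nappe at `v`, one half branch of `S(z)`**: `S(v)` carries the colours `x, y` on the half
branch `τ` at `z`, `T v ⊆ {x', x, y, e}` and near `v` the colour `x'` is absent outside and `x` inside
`S(z)`: then the half branch `-τ` of `S(z)` at `v` carries `e` and misses `x`. -/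
theorem Irr.nappe_out (h : Irr U T) {z v : ℂ} {x x' y e : Fin 6} (hv : dist v z = 1)
    (hT : T v ⊆ {x', x, y, e}) (hx : x ∈ Pal U z) (hy : y ∈ Pal U z) {τ : ℝ}
    (hτ : τ = 1 ∨ τ = -1)
    (hJ : ∀ᶠ t : ℝ in 𝓝[>] 0, x ∈ Pal U (hb v z τ t) ∧ y ∈ Pal U (hb v z τ t))
    (hs : Sd U z v x' x) :
    ∀ᶠ t : ℝ in 𝓝[>] 0, e ∈ T (hb z v (-τ) t) ∧ x ∉ Pal U (hb z v (-τ) t) := by
  have hzv : dist z v = 1 := by rw [dist_comm]; exact hv
  obtain ⟨δ, hδ, hsub⟩ := mem_nhdsGT_iff_exists_Ioo_subset.1 (hJ.and (ev_small one_pos))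
  rw [mem_Ioi] at hδ
  set t0 := min (δ / 2) (1 / 2) with ht0
  have p0 : 0 < t0 := by positivity
  have p1 : t0 < δ := lt_of_le_of_lt (min_le_left _ _) (by linarith)
  have p2 : t0 < 1 := lt_of_le_of_lt (min_le_right _ _) (by norm_num)
  have hπ := Real.pi_gt_three
  have hsin : 0 < Real.sin t0 := Real.sin_pos_of_pos_of_lt_pi p0 (by linarith)
  have hg : dist (hb v z τ t0) v = 1 := dist_hb hzv τ t0
  have hsg : -τ * sg z v (hb v z τ t0) < 0 := by
    rw [sg_hb hv]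
    rcases hτ with rfl | rfl
    · rw [one_mul]; linarith
    · rw [neg_one_mul, Real.sin_neg]; linarith
  have hJx : ∀ t ∈ Ioc 0 t0, x ∈ Pal U (hb v z τ t) := fun t ht =>
    (hsub ⟨ht.1, lt_of_le_of_lt ht.2 p1⟩).1.1
  have hJy : ∀ t ∈ Ioc 0 t0, y ∈ Pal U (hb v z τ t) := fun t ht =>
    (hsub ⟨ht.1, lt_of_le_of_lt ht.2 p1⟩).1.2
  have hall := (tendsto_hb z v (-τ)).eventually
    ((eventually_eventually_nhds.2 hs).and (eventually_eventually_nhds.2 (h.nhd v)))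
  filter_upwards [hall, hb_in hg hsg] with t ht ht1
  have hnear : ∀ᶠ w in 𝓝 (hb z v (-τ) t), dist w (hb v z τ t0) < 1 :=
    (continuous_id.dist continuous_const).continuousAt.eventually (Iio_mem_nhds ht1)
  have hdist := dist_hb hv (-τ) t
  constructor
  · refine h.mem_of_side hdist (Or.inl ?_)
    filter_upwards [ht.1, ht.2, hnear] with w h1 h2 h3 h4
    intro i hi
    have q1 := h.mx.swept_hb p0 hx hJx (w := w) (Or.inr ⟨h4, h3⟩)
    have q2 := h.mx.swept_hb p0 hy hJy (w := w) (Or.inr ⟨h4, h3⟩)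
    rcases hT (h2 hi) with rfl | rfl | rfl | h5
    · exact absurd (h.sub _ hi) (h1.1 h4)
    · exact absurd (h.sub _ hi) q1
    · exact absurd (h.sub _ hi) q2
    · exact h5
  · refine h.mx.notMem_of_sides (z := z) ?_
    filter_upwards [ht.1, hnear] with w h1 h3 h4
    rcases lt_or_gt_of_ne h4 with h5 | h5
    · exact h1.2 h5
    · exact h.mx.swept_hb p0 hx hJx (Or.inr ⟨h5, h3⟩)

/-- **The free nappe at `v`, the other half branch**: `x` absent outside and `x'` absent inside. -/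
theorem Irr.nappe_in (h : Irr U T) {z v : ℂ} {x x' y e : Fin 6} (hv : dist v z = 1)
    (hT : T v ⊆ {x', x, y, e}) (hx : x ∈ Pal U z) (hy : y ∈ Pal U z) {τ : ℝ}
    (hτ : τ = 1 ∨ τ = -1)
    (hJ : ∀ᶠ t : ℝ in 𝓝[>] 0, x ∈ Pal U (hb v z τ t) ∧ y ∈ Pal U (hb v z τ t))
    (hs : Sd U z v x x') :
    ∀ᶠ t : ℝ in 𝓝[>] 0, e ∈ T (hb z v τ t) ∧ x ∉ Pal U (hb z v τ t) := by
  have hzv : dist z v = 1 := by rw [dist_comm]; exact hv
  obtain ⟨δ, hδ, hsub⟩ := mem_nhdsGT_iff_exists_Ioo_subset.1 (hJ.and (ev_small one_pos))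
  rw [mem_Ioi] at hδ
  set t0 := min (δ / 2) (1 / 2) with ht0
  have p0 : 0 < t0 := by positivity
  have p1 : t0 < δ := lt_of_le_of_lt (min_le_left _ _) (by linarith)
  have p2 : t0 < 1 := lt_of_le_of_lt (min_le_right _ _) (by norm_num)
  have hπ := Real.pi_gt_three
  have hsin : 0 < Real.sin t0 := Real.sin_pos_of_pos_of_lt_pi p0 (by linarith)
  have hg : dist (hb v z τ t0) v = 1 := dist_hb hzv τ t0
  have hsg : 0 < τ * sg z v (hb v z τ t0) := by
    rw [sg_hb hv]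
    rcases hτ with rfl | rfl
    · rw [one_mul, one_mul]; exact hsin
    · rw [neg_one_mul t0, Real.sin_neg]; linarith
  have hJx : ∀ t ∈ Ioc 0 t0, x ∈ Pal U (hb v z τ t) := fun t ht =>
    (hsub ⟨ht.1, lt_of_le_of_lt ht.2 p1⟩).1.1
  have hJy : ∀ t ∈ Ioc 0 t0, y ∈ Pal U (hb v z τ t) := fun t ht =>
    (hsub ⟨ht.1, lt_of_le_of_lt ht.2 p1⟩).1.2
  have hall := (tendsto_hb z v τ).eventually
    ((eventually_eventually_nhds.2 hs).and (eventually_eventually_nhds.2 (h.nhd v)))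
  filter_upwards [hall, hb_out hg hsg] with t ht ht1
  have hnear : ∀ᶠ w in 𝓝 (hb z v τ t), 1 < dist w (hb v z τ t0) :=
    (continuous_id.dist continuous_const).continuousAt.eventually (Ioi_mem_nhds ht1)
  have hdist := dist_hb hv τ t
  constructor
  · refine h.mem_of_side hdist (Or.inr ?_)
    filter_upwards [ht.1, ht.2, hnear] with w h1 h2 h3 h4
    intro i hi
    have q1 := h.mx.swept_hb p0 hx hJx (w := w) (Or.inl ⟨h4, h3⟩)
    have q2 := h.mx.swept_hb p0 hy hJy (w := w) (Or.inl ⟨h4, h3⟩)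
    rcases hT (h2 hi) with rfl | rfl | rfl | h5
    · exact absurd (h.sub _ hi) (h1.2 h4)
    · exact absurd (h.sub _ hi) q1
    · exact absurd (h.sub _ hi) q2
    · exact h5
  · refine h.mx.notMem_of_sides (z := z) ?_
    filter_upwards [ht.1, hnear] with w h1 h3 h4
    rcases lt_or_gt_of_ne h4 with h5 | h5
    · exact h.mx.swept_hb p0 hx hJx (Or.inl ⟨h5, h3⟩)
    · exact h1.1 h5

/-- the data of a delta pair, `x` the colour of `{a, b}` in the exact arc of `S(v)` at `z`, the other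
colour is `x'` -/
structure Delta4 (U : Fin 6 → Set ℂ) (T : ℂ → Set (Fin 6)) (z v : ℂ) (x x' c d e : Fin 6)
    (τ : ℝ) : Prop where
  sgn : τ = 1 ∨ τ = -1
  /-- the exact `xc`-arc of `S(v)` at `z` -/
  exact : ∀ᶠ t : ℝ in 𝓝[>] 0, T (hb v z τ t) = {x, c}
  /-- the other half branch of `S(v)` at `z` -/
  other : ∀ᶠ t : ℝ in 𝓝[>] 0, T (hb v z (-τ) t) ⊆ {x', d} ∧ d ∈ T (hb v z (-τ) t)
  /-- a half branch of `S(z)` at `v` carries `e` and misses `x` -/
  side : (Sd U z v x' x ∧ ∀ᶠ t : ℝ in 𝓝[>] 0, e ∈ T (hb z v (-τ) t) ∧ x ∉ Pal U (hb z v (-τ) t)) ∨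
    (Sd U z v x x' ∧ ∀ᶠ t : ℝ in 𝓝[>] 0, e ∈ T (hb z v τ t) ∧ x ∉ Pal U (hb z v τ t))

/-- **DELTA, arbitrary second point.** -/
theorem Irr.germ_delta4 (h : Irr U T) {z v : ℂ} {a b c d e : Fin 6} (hz : DPt T z a b c d)
    (hv : dist v z = 1) (hT : T v = {a, b, c, e}) :
    ∃ τ, Delta4 U T z v a b c d e τ ∨ Delta4 U T z v b a c d e τ := by
  have haz : a ∈ T z := by rw [hz.pal]; simp
  have hbz : b ∈ T z := by rw [hz.pal]; simp
  have hcz : c ∈ T z := by rw [hz.pal]; simp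
  have hdz : d ∈ T z := by rw [hz.pal]; simp
  have hav : a ∈ T v := by rw [hT]; simp
  have hbv : b ∈ T v := by rw [hT]; simp
  have hcv : c ∈ T v := by rw [hT]; simp
  have hzv : dist z v = 1 := by rw [dist_comm]; exact hv
  -- the general step
  have key : ∀ x x' : Fin 6, ∀ τ : ℝ, (τ = 1 ∨ τ = -1) → x ∈ T z → x ∈ T v → x' ∈ T v →
      T v ⊆ {x', x, c, e} → (Sd U z v x' x ∨ Sd U z v x x') →
      (∀ᶠ t : ℝ in 𝓝[>] 0, T (hb v z τ t) ⊆ {x, c}) →
      (∀ᶠ t : ℝ in 𝓝[>] 0, T (hb v z (-τ) t) ⊆ {x', d}) → Delta4 U T z v x x' c d e τ := by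
    intro x x' τ hτ hxz hxv hxv' hT' hs h1 h2
    have hex := h.hb_exact hzv h1 (h.sub _ hxv) (h.sub _ hcv)
    have hJ : ∀ᶠ t : ℝ in 𝓝[>] 0, x ∈ Pal U (hb v z τ t) ∧ c ∈ Pal U (hb v z τ t) := by
      filter_upwards [hex] with t ht
      exact ⟨h.sub _ (by rw [ht]; simp), h.sub _ (by rw [ht]; simp)⟩
    refine ⟨hτ, hex, h2.and (h.hb_mem hzv h2 (h.sub _ hxv')), ?_⟩
    rcases hs with hs | hs
    · exact Or.inl ⟨hs, h.nappe_out hv hT' (h.sub _ hxz) (h.sub _ hcz) hτ hJ hs⟩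
    · exact Or.inr ⟨hs, h.nappe_in hv hT' (h.sub _ hxz) (h.sub _ hcz) hτ hJ hs⟩
  have s1 : T v ⊆ {b, a, c, e} := by
    rw [hT]; intro i hi; simp only [mem_insert_iff, mem_singleton_iff] at hi ⊢; tauto
  have s2 : T v ⊆ {a, b, c, e} := by rw [hT]
  have hs := h.sides hz hv
  rcases h.germ_branch hz hzv with h1 | h1 | h1 | h1
  · exact ⟨1, Or.inl (key a b 1 (Or.inl rfl) haz hav hbv s1 hs.symm h1.1 h1.2)⟩
  · refine ⟨-1, Or.inr (key b a (-1) (Or.inr rfl) hbz hbv hav s2 hs h1.2 ?_)⟩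
    rw [neg_neg]; exact h1.1
  · exact ⟨1, Or.inr (key b a 1 (Or.inl rfl) hbz hbv hav s2 hs h1.1 h1.2)⟩
  · refine ⟨-1, Or.inl (key a b (-1) (Or.inr rfl) haz hav hbv s1 hs.symm h1.2 ?_)⟩
    rw [neg_neg]; exact h1.1

/-- in a delta pair exact `ab`-arcs of `S(z)` accumulate at `v` from at most one side -/
theorem Delta4.one_side {z v : ℂ} {x x' c d e : Fin 6} {τ : ℝ} (h : Irr U T)
    (D : Delta4 U T z v x x' c d e τ) : ∃ ρ : ℝ, (ρ = 1 ∨ ρ = -1) ∧
      ∀ᶠ t : ℝ in 𝓝[>] 0, e ∈ T (hb z v ρ t) ∧ x ∉ T (hb z v ρ t) := by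
  rcases D.side with ⟨-, h1⟩ | ⟨-, h1⟩
  · refine ⟨-τ, ?_, h1.mono fun t ht => ⟨ht.1, fun h2 => ht.2 (h.sub _ h2)⟩⟩
    rcases D.sgn with rfl | rfl
    · exact Or.inr rfl
    · exact Or.inl (neg_neg _)
  · exact ⟨τ, D.sgn, h1.mono fun t ht => ⟨ht.1, fun h2 => ht.2 (h.sub _ h2)⟩⟩

end Vale.Agent.P032.Six
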