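import Vale.Agent.P032.H630.ZoneX

/-!
# P032: delta pairs

Frame `Irr U T`, six colours `x, x', c, d, e, f`.  `Del U T z V x x' c d e f ρ σ` (635's setting):
`z = (x x' | c d)`, `V ∈ S(z)`, `V = (x e | x' c)`, exact `x x'`-arc of `S(z)` on the half branch `ρ`
at `V`, `σ = 1` if `x` is inside `S(z)` at `V`, `-1` if it is outside.  `c` is the visitor, `e` the
letter beyond `V`, `f` the sixth colour.

* `Irr.exists_del` : existence of `ρ, σ`; `Del.beyond` : the half branch `-ρ`.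
* `Del.symm` : the exact `x'c`-arc of `S(V)` at `z` is on the half branch `ρ σ`, `c` has the side `σ` of
  `S(V)` at `z` (`x'` the side `-σ`): `Del U T V z c x' x e d f (ρ σ) σ`.
* `Del.zone_z` (DE11) : `V` is the end point of the `x x'`-zone of `z`; `Del.zone_V` : the zones at `V`.
* `Del.dir_e` (DE3) : direction of the points of `S(V)` with the colour `e` or `x`.
* `Del.owner_z`, `Del.owner_V` (DE9); `Del.over_C` (DE2), `Del.overlap` (DE10).
-/

open Set Filter Topology Metric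

noncomputable section

namespace Vale.Agent.P032.Six

variable {U : Fin 6 → Set ℂ} {T : ℂ → Set (Fin 6)}

/-- points of `S(V)` in the angle coordinate from `z` -/
theorem exists_an {V z p : ℂ} (hz : dist z V = 1) (hp : dist p V = 1) : ∃ φ, p = an V z φ := by
  have hn : ‖z - V‖ = 1 := by rw [← dist_eq_norm]; exact hz
  have hp' : ‖p - V‖ = 1 := by rw [← dist_eq_norm]; exact hp
  have hne : z - V ≠ 0 := by
    intro h0; rw [h0, norm_zero] at hn; exact zero_ne_one hn
  obtain ⟨φ, hφ⟩ := exists_cis (u := (p - V) / (z - V)) (by rw [norm_div, hn, hp', div_one])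
  refine ⟨φ, ?_⟩
  have : p - V = (z - V) * cis φ := by rw [← hφ]; field_simp
  unfold an
  linear_combination this

/-- a delta pair -/
structure Del (U : Fin 6 → Set ℂ) (T : ℂ → Set (Fin 6)) (z V : ℂ) (x x' c d e f : Fin 6)
    (ρ σ : ℝ) : Prop where
  nd : [x, x', c, d, e, f].Nodup
  hz : DPt T z x x' c d
  hV : dist V z = 1
  hDV : DPt T V x e x' c
  hρ : ρ = 1 ∨ ρ = -1
  ex : ∀ᶠ t : ℝ in 𝓝[>] 0, T (hb z V ρ t) = {x, x'}
  ori : Ori U z V x x' σ

/-- **Existence.** -/
theorem Irr.exists_del (h : Irr U T) {z V : ℂ} {x x' c d e f : Fin 6}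
    (nd : [x, x', c, d, e, f].Nodup) (hz : DPt T z x x' c d) (hV : dist V z = 1)
    (hDV : DPt T V x e x' c) : ∃ ρ σ, Del U T z V x x' c d e f ρ σ := by
  obtain ⟨σ, hσ⟩ := h.exists_ori hz hV
  have hxz : x ∈ T z := by rw [hz.pal]; simp
  have hxz' : x' ∈ T z := by rw [hz.pal]; simp
  have hcz : c ∈ T z := by rw [hz.pal]; simp
  have key : ∀ {τ : ℝ}, (∀ᶠ t : ℝ in 𝓝[>] 0, T (hb z V τ t) ⊆ {x, c}) → False := by
    intro τ h1
    have h2 := h.hb_exact hV h1 (h.sub _ hxz) (h.sub _ hcz)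
    obtain ⟨t, ht⟩ := (h.arcs_of_exact hz.ac hxz hcz hV h2).exists
    exact h.no_cross hz ht
  rcases h.germ_branch hDV hV with h1 | h1 | h1 | h1
  · exact ⟨1, σ, nd, hz, hV, hDV, Or.inl rfl, h.hb_exact hV h1.1 (h.sub _ hxz) (h.sub _ hxz'), hσ⟩
  · exact (key h1.1).elim
  · exact (key h1.2).elim
  · exact ⟨-1, σ, nd, hz, hV, hDV, Or.inr rfl, h.hb_exact hV h1.2 (h.sub _ hxz) (h.sub _ hxz'), hσ⟩

namespace Del

variable {z V : ℂ} {x x' c d e f : Fin 6} {ρ σ : ℝ}

theorem cov (D : Del U T z V x x' c d e f ρ σ) (i : Fin 6) :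
    i = x ∨ i = x' ∨ i = c ∨ i = d ∨ i = e ∨ i = f := by
  have nd := D.nd
  simp only [List.nodup_cons, List.mem_cons, List.not_mem_nil, not_or, or_false,
    not_false_eq_true, List.nodup_nil, and_true] at nd
  obtain ⟨⟨h1, h2, h3, h4, h5⟩, ⟨h6, h7, h8, h9⟩, ⟨h10, h11, h12⟩, ⟨h13, h14⟩, h15⟩ := nd
  have c1 : ({x, x', c, d, e, f} : Set (Fin 6)).ncard = 6 := by
    rw [Set.ncard_insert_of_notMem (by simp [h1, h2, h3, h4, h5]),
      Set.ncard_insert_of_notMem (by simp [h6, h7, h8, h9]),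
      Set.ncard_insert_of_notMem (by simp [h10, h11, h12]),
      Set.ncard_insert_of_notMem (by simp [h13, h14]), Set.ncard_pair h15]
  have c2 : ({x, x', c, d, e, f} : Set (Fin 6)) = univ := by
    refine Set.eq_of_subset_of_ncard_le (subset_univ _) ?_ (Set.toFinite _)
    rw [c1, Set.ncard_univ]; simp
  have c3 : i ∈ ({x, x', c, d, e, f} : Set (Fin 6)) := by rw [c2]; trivial
  simpa using c3

theorem toVx (D : Del U T z V x x' c d e f ρ σ) : Vx U T z V x x' c d e c ρ σ :=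
  ⟨D.hz, D.hV, D.hDV, D.hρ, D.ex, D.ori⟩

theorem Vz (D : Del U T z V x x' c d e f ρ σ) : dist z V = 1 := D.toVx.Vz

theorem hσ (D : Del U T z V x x' c d e f ρ σ) : σ = 1 ∨ σ = -1 := by
  rcases D.ori with ⟨rfl, -⟩ | ⟨rfl, -⟩ <;> simp

/-- the half branch beyond `V` -/
theorem beyond (D : Del U T z V x x' c d e f ρ σ) (h : Irr U T) :
    ∀ᶠ t : ℝ in 𝓝[>] 0, T (hb z V (-ρ) t) ⊆ {e, c} ∧ e ∈ T (hb z V (-ρ) t) := by
  have hz := D.hz
  have hV := D.hV
  have hDV := D.hDV
  have hxz : x ∈ T z := by rw [hz.pal]; simp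
  have hxz' : x' ∈ T z := by rw [hz.pal]; simp
  have hcz : c ∈ T z := by rw [hz.pal]; simp
  have key : ∀ {τ : ℝ}, (∀ᶠ t : ℝ in 𝓝[>] 0, T (hb z V τ t) ⊆ {x, c}) → False := by
    intro τ h1
    have h2 := h.hb_exact hV h1 (h.sub _ hxz) (h.sub _ hcz)
    obtain ⟨t, ht⟩ := (h.arcs_of_exact hz.ac hxz hcz hV h2).exists
    exact h.no_cross hz ht
  have hec : ∀ {τ : ℝ}, (∀ᶠ t : ℝ in 𝓝[>] 0, T (hb z V τ t) ⊆ {e, c}) →
      ∀ᶠ t : ℝ in 𝓝[>] 0, T (hb z V τ t) ⊆ {e, c} ∧ e ∈ T (hb z V τ t) := by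
    intro τ h1
    have h1' : ∀ᶠ t : ℝ in 𝓝[>] 0, T (hb z V τ t) ⊆ {c, e} := by rwa [pair_comm] at h1
    exact h1.and (h.hb_mem hV h1' (h.sub _ hcz))
  -- the exact half branch is not in `{e, c}`
  have hnot : ∀ {τ : ℝ}, ρ = τ → (∀ᶠ t : ℝ in 𝓝[>] 0, T (hb z V τ t) ⊆ {e, c}) → False := by
    rintro τ rfl h1
    obtain ⟨t, h2, h3⟩ := (h1.and D.ex).exists
    rw [h3] at h2
    have := h2 (show x ∈ ({x, x'} : Set (Fin 6)) by simp)
    simp only [mem_insert_iff, mem_singleton_iff] at this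
    rcases this with h4 | h4
    · exact hDV.ab h4
    · exact hz.ac h4
  rcases h.germ_branch hDV hV with h1 | h1 | h1 | h1
  · rcases D.hρ with rfl | rfl
    · exact hec h1.2
    · exact (hnot rfl h1.2).elim
  · exact (key h1.1).elim
  · exact (key h1.2).elim
  · rcases D.hρ with rfl | rfl
    · exact (hnot rfl h1.1).elim
    · rw [neg_neg]; exact hec h1.1

theorem nd' (D : Del U T z V x x' c d e f ρ σ) : [c, x', x, e, d, f].Nodup := by
  have nd := D.nd
  simp only [List.nodup_cons, List.mem_cons, List.not_mem_nil, not_or, or_false,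
    not_false_eq_true, List.nodup_nil, and_true] at nd ⊢
  obtain ⟨⟨h1, h2, h3, h4, h5⟩, ⟨h6, h7, h8, h9⟩, ⟨h10, h11, h12⟩, ⟨h13, h14⟩, h15⟩ := nd
  exact ⟨⟨Ne.symm h6, Ne.symm h2, h11, h10, h12⟩, ⟨Ne.symm h1, h8, h7, h9⟩, ⟨h4, h3, h5⟩,
    ⟨Ne.symm h13, h15⟩, h14⟩

/-- **Symmetry of delta pairs.** -/
theorem symm (D : Del U T z V x x' c d e f ρ σ) (h : Irr U T) :
    Del U T V z c x' x e d f (ρ * σ) σ := by
  have hDV : DPt T V c x' x e := D.hDV.swap.swap12
  have hDz : DPt T z c d x' x := D.hz.swap.swap34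
  obtain ⟨ρ', σ', B⟩ := h.exists_del D.nd' hDV D.Vz hDz
  -- angles of exact points
  obtain ⟨p, hp⟩ := D.hDV.arc1
  obtain ⟨φ, rfl⟩ := exists_an D.Vz hp.1
  obtain ⟨p', hp'⟩ := B.hDV.arc1
  obtain ⟨φ', rfl⟩ := exists_an B.Vz hp'.1
  have hx'V : x' ∈ T V := D.toVx.xV'
  have hcV : c ∈ T V := D.toVx.kV'
  have hxz : x ∈ T z := by rw [D.hz.pal]; simp
  have hxz' : x' ∈ T z := by rw [D.hz.pal]; simp
  have e1 : ρ' = ρ * σ := by
    refine D.toVx.z_end' h hp B.hρ (Eventually.frequently ?_)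
    have := B.ex
    rw [pair_comm] at this
    exact h.arcs_of_exact D.hDV.cd hx'V hcV D.Vz this
  have e2 : ρ = ρ' * σ' := by
    refine B.toVx.z_end' h hp' D.hρ (Eventually.frequently ?_)
    have := D.ex
    rw [pair_comm] at this
    exact h.arcs_of_exact D.hz.ab.symm hxz' hxz D.hV this
  have e3 : σ' = σ := by
    rw [e1] at e2
    obtain ⟨q1, q2⟩ := D.toVx.sq
    have : ρ * ρ = ρ * σ * σ' * ρ := by nth_rewrite 1 [e2]; ring
    rw [q1] at this
    have h3 : σ * σ' = 1 := by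
      have : 1 = (ρ * ρ) * (σ * σ') := by rw [this]; ring
      rw [q1, one_mul] at this
      exact this.symm
    rcases D.hσ with rfl | rfl <;> linarith
  rw [← e1, ← e3]
  exact B

/-- **Zones at `V`** -/
theorem zone_V (D : Del U T z V x x' c d e f ρ σ) (h : Irr U T) {φ ψ : ℝ}
    (hg : Arc T V (an V z φ) {x, e}) (hg' : Arc T V (an V z ψ) {x', c}) :
    ρ * σ * (Real.sin φ * Real.sin ψ * Real.sin (ψ - φ)) < 0 := D.toVx.zone h hg hg'

/-- **`V` is the end point of the `x x'`-zone of `z`**: `φ` the angle (from `V`) of an exact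
`cd`-point, `ψ` of an exact `x x'`-point of `S(z)` -/
theorem zone_z (D : Del U T z V x x' c d e f ρ σ) (h : Irr U T) {φ ψ : ℝ}
    (hg : Arc T z (an z V φ) {c, d}) (hg' : Arc T z (an z V ψ) {x, x'}) :
    ρ * (Real.sin φ * Real.sin ψ * Real.sin (ψ - φ)) < 0 := by
  have := (D.symm h).toVx.zone h hg (by rwa [pair_comm] : Arc T z (an z V ψ) {x', x})
  rwa [mul_assoc ρ σ σ, D.toVx.sq.2, mul_one] at this

/-- **DE3**: `ω` the angle (from `z`) of a point of `S(V)` with the colour `e` or `x`, `ψ` the angle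
of an exact `x'c`-point: `ω` is not after `ψ` -/
theorem dir_e (D : Del U T z V x x' c d e f ρ σ) (h : Irr U T) {ω ψ : ℝ}
    (hw : e ∈ Pal U (an V z ω) ∨ x ∈ Pal U (an V z ω)) (hg : Arc T V (an V z ψ) {x', c}) :
    ρ * σ * (Real.sin ω * Real.sin ψ * Real.sin (ψ - ω)) ≤ 0 := by
  by_contra hcon
  push Not at hcon
  have B := D.symm h
  obtain ⟨μ, hμ⟩ := h.exists_ori D.hDV.swap (dist_an D.Vz ψ)
  have s1 := D.toVx.swap.side_sign h hg hμ
  have hω : Real.sin ω ≠ 0 := by
    intro h0; rw [h0] at hcon; norm_num at hcon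
  have hpos : 0 < Real.sin ω * Real.sin ω := mul_self_pos.2 hω
  have hcont : Continuous fun t : ℝ => Real.sin ω * Real.sin (ω - (ρ * σ) * t) := by fun_prop
  have hev : ∀ᶠ t : ℝ in 𝓝[>] 0, 0 < Real.sin ω * Real.sin (ω - (ρ * σ) * t) := by
    have h1 := hcont.tendsto 0
    simp only [mul_zero, sub_zero] at h1
    exact (h1.eventually (lt_mem_nhds hpos)).filter_mono nhdsWithin_le_nhds
  have hx'V : x' ∈ T V := D.toVx.xV'
  have hcV : c ∈ T V := D.toVx.kV'
  have harc : ∀ᶠ t : ℝ in 𝓝[>] 0, Arc T V (hb V z (ρ * σ) t) {x', c} := by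
    have := B.ex
    rw [pair_comm] at this
    exact h.arcs_of_exact D.hDV.cd hx'V hcV D.Vz this
  obtain ⟨t, ht, h2, h3⟩ := (harc.and (hev.and (ev_small (δ := 1) one_pos))).exists
  rw [hb_eq_an] at ht
  obtain ⟨ν, hν⟩ := h.exists_ori D.hDV.swap (dist_an D.Vz (ρ * σ * t))
  have s2 := D.toVx.swap.side_sign h ht hν
  have hst : 0 < Real.sin t := Real.sin_pos_of_pos_of_lt_pi h3.1 (by linarith [Real.pi_gt_three])
  have hτ : ρ * σ = 1 ∨ ρ * σ = -1 := B.hρ
  have e1 : Real.sin (ρ * σ * t) = ρ * σ * Real.sin t := by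
    rcases hτ with h4 | h4
    · rw [h4, one_mul, one_mul]
    · rw [h4, show (-1 : ℝ) * t = -t by ring, Real.sin_neg]; ring
  rw [e1] at s2
  obtain ⟨q1, q2⟩ := D.toVx.sq
  -- `ν σ < 0`
  have s3 : ν * σ < 0 := by
    by_contra h5
    push Not at h5
    have : ν * ρ * (ρ * σ * Real.sin t) = (ρ * ρ) * (ν * σ) * Real.sin t := by ring
    rw [this, q1, one_mul] at s2
    have := mul_nonneg h5 hst.le
    linarith
  -- the two normals are separated by `ω`
  have c1 : cr (an V z ω - V) (an V z ψ - V) = Real.sin (ψ - ω) := cr_an D.Vz ω ψ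
  have c2 : cr (an V z ω - V) (an V z (ρ * σ * t) - V) = Real.sin (ρ * σ * t - ω) :=
    cr_an D.Vz ω _
  have e2 : Real.sin (ρ * σ * t - ω) = -Real.sin (ω - ρ * σ * t) := by
    rw [show ρ * σ * t - ω = -(ω - ρ * σ * t) by ring, Real.sin_neg]
  -- signs: A = μ sin (ψ - ω), B = ν sin (ρ σ t - ω)
  have hμ2 : μ * μ = 1 := hμ.sq
  have hν2 : ν * ν = 1 := hν.sq
  have t1 : 0 < (μ * Real.sin (ψ - ω)) * (σ * Real.sin ω) * (-1) := by
    -- ρσ sin ω sin ψ sin(ψ-ω) > 0 and μ ρ sin ψ < 0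
    have h6 : (μ * ρ * Real.sin ψ) *
        (ρ * σ * (Real.sin ω * Real.sin ψ * Real.sin (ψ - ω))) < 0 :=
      mul_neg_of_neg_of_pos s1 hcon
    have h7 : (μ * ρ * Real.sin ψ) * (ρ * σ * (Real.sin ω * Real.sin ψ * Real.sin (ψ - ω))) =
        (ρ * ρ) * (Real.sin ψ * Real.sin ψ) *
          ((μ * Real.sin (ψ - ω)) * (σ * Real.sin ω)) := by ring
    rw [h7, q1, one_mul] at h6
    by_contra h8
    push Not at h8
    have h9 : 0 ≤ (μ * Real.sin (ψ - ω)) * (σ * Real.sin ω) := by linarith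
    have := mul_nonneg (mul_self_nonneg (Real.sin ψ)) h9
    linarith
  have t2 : 0 < (ν * Real.sin (ρ * σ * t - ω)) * (σ * Real.sin ω) := by
    rw [e2]
    have h6 : (ν * -Real.sin (ω - ρ * σ * t)) * (σ * Real.sin ω) =
        -(ν * σ) * (Real.sin ω * Real.sin (ω - ρ * σ * t)) := by ring
    rw [h6]
    exact mul_pos (by linarith) h2
  have hcd : x ∉ Pal U (an V z ω) ∧ e ∉ Pal U (an V z ω) := by
    have t1' : (μ * Real.sin (ψ - ω)) * (σ * Real.sin ω) < 0 := by linarith
    rcases lt_or_gt_of_ne (show σ * Real.sin ω ≠ 0 from mul_ne_zero (by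
      rcases D.hσ with h8 | h8 <;> rw [h8] <;> norm_num) hω) with h9 | h9
    · -- σ sin ω < 0 : μ … > 0, ν … < 0
      have a1 : 0 < μ * Real.sin (ψ - ω) := by
        by_contra h10; push Not at h10
        have := mul_nonneg_of_nonpos_of_nonpos h10 h9.le
        linarith
      have a2 : ν * Real.sin (ρ * σ * t - ω) < 0 := by
        by_contra h10; push Not at h10
        have := mul_nonpos_of_nonneg_of_nonpos h10 h9.le
        linarith
      exact h.zone D.hDV.swap (dist_an D.Vz ω) hg hμ ht hν (by rw [c1]; exact a1)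
        (by rw [c2]; exact a2)
    · have a1 : μ * Real.sin (ψ - ω) < 0 := by
        by_contra h10; push Not at h10
        have := mul_nonneg h10 h9.le
        linarith
      have a2 : 0 < ν * Real.sin (ρ * σ * t - ω) := by
        by_contra h10; push Not at h10
        have := mul_nonpos_of_nonpos_of_nonneg h10 h9.le
        linarith
      exact h.zone D.hDV.swap (dist_an D.Vz ω) ht hν hg hμ (by rw [c2]; exact a2)
        (by rw [c1]; exact a1)
  rcases hw with h10 | h10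
  · exact hcd.2 h10
  · exact hcd.1 h10

/-- **DE9**: `z` is the only owner of the wall `x | x'` of `V` -/
theorem owner_z (D : Del U T z V x x' c d e f ρ σ) (h : Irr U T) {w : ℂ} {τ : ℝ}
    (hw : dist V w = 1) (hτ : τ = 1 ∨ τ = -1)
    (hex : ∀ᶠ t : ℝ in 𝓝[>] 0, T (hb w V τ t) = {x, x'}) : z = w :=
  h.owner_unique D.hz D.hV hw hτ hex

/-- **DE9**: `V` is the only owner of the wall `x' | c` of `z` -/
theorem owner_V (D : Del U T z V x x' c d e f ρ σ) (h : Irr U T) {w : ℂ} {τ : ℝ}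
    (hw : dist z w = 1) (hτ : τ = 1 ∨ τ = -1)
    (hex : ∀ᶠ t : ℝ in 𝓝[>] 0, T (hb w z τ t) = {x', c}) : V = w :=
  h.owner_unique D.hDV.swap D.Vz hw hτ hex

theorem not_V (D : Del U T z V x x' c d e f ρ σ) {p : ℂ} (hd : d ∈ T p) : p ≠ V := by
  rintro rfl
  rw [D.hDV.pal] at hd
  have nd := D.nd
  simp only [List.nodup_cons, List.mem_cons, List.not_mem_nil, not_or, or_false,
    not_false_eq_true, List.nodup_nil, and_true] at nd
  simp only [mem_insert_iff, mem_singleton_iff] at hd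
  rcases hd with h1 | h1 | h1 | h1
  · exact nd.1.2.2.1 h1.symm
  · exact nd.2.2.2.1.1 h1
  · exact nd.2.1.2.1 h1.symm
  · exact D.hz.cd h1.symm

theorem not_anti (D : Del U T z V x x' c d e f ρ σ) (h : Irr U T) {p : ℂ} (hc : c ∈ T p)
    (hd : d ∈ T p) : V + p ≠ 2 * z := by
  intro hcon
  have e : p = 2 * z - V := by linear_combination hcon
  subst e
  exact h.anti D.hz D.hV (h.sub _ D.toVx.xV) (h.sub _ D.toVx.xV') (h.sub _ hc) (h.sub _ hd)

/-- **DE3, existence part**: `q` with `T q = {c, d, f}`: `e` is a colour of `V + q - z` -/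
theorem e_mem (D : Del U T z V x x' c d e f ρ σ) (h : Irr U T) {q : ℂ} (hq : dist q z = 1)
    (hTq : T q = {c, d, f}) : e ∈ T (V + q - z) := by
  have hcov : ∀ i, i = x ∨ i = x' ∨ i = c ∨ i = d ∨ i = f ∨ i = e := fun i => by
    have := D.cov i; tauto
  refine h.mem_hb_fr (z := q) (τ := ρ) (Eventually.frequently ?_)
  filter_upwards [h.half_third hcov D.hV hq D.hρ (BadQ.pal_of_exact h D.ex) hTq
    (D.not_V (by rw [hTq]; simp)) (D.not_anti h (by rw [hTq]; simp) (by rw [hTq]; simp))]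
    with t ht using ht.2.2

/-- **DE3**: the direction `θ` (from `V`) of a `{c, d, f}`-point of `S(z)` is not after the direction
`ψ` (from `z`) of an exact `x'c`-point of `S(V)` -/
theorem dir_q (D : Del U T z V x x' c d e f ρ σ) (h : Irr U T) {θ ψ : ℝ}
    (hTq : T (an z V θ) = {c, d, f}) (hg : Arc T V (an V z ψ) {x', c}) :
    ρ * σ * (Real.sin θ * Real.sin ψ * Real.sin (ψ - θ)) ≤ 0 := by
  have h1 := D.e_mem h (dist_an D.hV θ) hTq
  have e1 : V + an z V θ - z = an V z (θ + Real.pi) := by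
    unfold an
    have : cis (θ + Real.pi) = -cis θ := by
      apply Complex.ext
      · rw [cis_re, Real.cos_add_pi, Complex.neg_re, cis_re]
      · rw [cis_im, Real.sin_add_pi, Complex.neg_im, cis_im]
    rw [this]; ring
  rw [e1] at h1
  have h2 := D.dir_e h (Or.inl (h.sub _ h1)) hg
  rw [Real.sin_add_pi, show ψ - (θ + Real.pi) = ψ - θ - Real.pi by ring, Real.sin_sub_pi] at h2
  have e2 : ρ * σ * (-Real.sin θ * Real.sin ψ * -Real.sin (ψ - θ)) =
      ρ * σ * (Real.sin θ * Real.sin ψ * Real.sin (ψ - θ)) := by ring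
  rwa [e2] at h2

/-- **DE2**: over an exact `cd`-point `p` of `S(z)` the circle `S(V)` carries `f` or is exact `xe` -/
theorem over_C (D : Del U T z V x x' c d e f ρ σ) (h : Irr U T) {p : ℂ} (hp : dist p z = 1)
    (hT : T p = {c, d}) : (c ∉ Pal U (V + p - z) ∧ d ∉ Pal U (V + p - z)) ∧
      (f ∈ T (V + p - z) ∨ Arc T V (V + p - z) {x, e}) := by
  have hcz : c ∈ T z := by rw [D.hz.pal]; simp
  have hdz : d ∈ T z := by rw [D.hz.pal]; simp
  have hA := h.arc_of_eq D.hz.cd hcz hdz hp hT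
  have hne : p ≠ V := D.not_V (by rw [hT]; simp)
  have hne2 : V + p ≠ 2 * z := D.not_anti h (by rw [hT]; simp) (by rw [hT]; simp)
  have hwV : dist (V + p - z) V = 1 := dist_trans2 hp
  -- the absent colours near `w` on `S(V)`
  have hnear : ∀ᶠ q in 𝓝[sphere V 1] (V + p - z), c ∉ Pal U q ∧ d ∉ Pal U q := by
    have h1 : Tendsto (fun q => q - V + z) (𝓝[sphere V 1] (V + p - z)) (𝓝[sphere z 1] p) := by
      refine tendsto_nhdsWithin_iff.2 ⟨?_, ?_⟩
      · have : Continuous fun q : ℂ => q - V + z := by fun_prop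
        have h2 := this.tendsto (V + p - z)
        rw [show V + p - z - V + z = p by ring] at h2
        exact h2.mono_left nhdsWithin_le_nhds
      · filter_upwards [self_mem_nhdsWithin] with q hq
        show dist (q - V + z) z = 1
        rw [dist_foot]; exact hq
    have h3 : ∀ᶠ p' in 𝓝[sphere z 1] p, (∀ᶠ q in 𝓝[sphere z 1] p', T q = {c, d}) ∧ p' ≠ V ∧
        V + p' ≠ 2 * z := by
      have h4 : ∀ᶠ p' in 𝓝[sphere z 1] p, ∀ᶠ q in 𝓝[sphere z 1] p', T q = {c, d} :=
        eventually_eventually_nhdsWithin.2 hA.2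
      filter_upwards [h4, mem_nhdsWithin_of_mem_nhds (isOpen_ne.mem_nhds hne),
        mem_nhdsWithin_of_mem_nhds ((isOpen_ne_fun (continuous_const.add continuous_id)
          continuous_const).mem_nhds hne2)] with p' m1 m2 m3 using ⟨m1, m2, m3⟩
    filter_upwards [h1.eventually h3, self_mem_nhdsWithin] with q hq hqs
    obtain ⟨m1, m2, m3⟩ := hq
    have hqz : dist (q - V + z) z = 1 := by rw [dist_foot]; exact hqs
    have hd : dist (q - V + z) q = 1 := by
      rw [dist_eq_norm, show q - V + z - q = z - V by ring, ← dist_eq_norm]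
      exact D.Vz
    have h5 := h.mx.shell2 hqz (P := {c, d}) (m1.mono fun q' hq' => by
      rw [← hq']; exact h.sub q') (v := q) hd (fun hcon => m3 (by rw [hcon]; ring))
      (fun hcon => m2 (by linear_combination -hcon))
    exact ⟨Set.disjoint_left.1 h5 (by simp), Set.disjoint_left.1 h5 (by simp)⟩
  have hself := hnear.self_of_nhdsWithin (show V + p - z ∈ sphere V 1 from hwV)
  refine ⟨hself, ?_⟩
  by_cases hf : f ∈ T (V + p - z)
  · exact Or.inl hf
  · right
    have hfn : ∀ᶠ q in 𝓝[sphere V 1] (V + p - z), f ∉ T q := by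
      filter_upwards [mem_nhdsWithin_of_mem_nhds (h.nhd (V + p - z))] with q hq hfq
      exact hf (hq hfq)
    have hsub : ∀ᶠ q in 𝓝[sphere V 1] (V + p - z), T q ⊆ T V := by
      filter_upwards [hfn, hnear] with q h6 h7 i hi
      rw [D.hDV.pal]
      rcases D.cov i with rfl | rfl | rfl | rfl | rfl | rfl
      · simp
      · simp
      · simp
      · exact absurd (h.sub _ hi) h7.2
      · simp
      · exact absurd hi h6
    rcases h.int_or_beta D.hDV hwV hsub with h8 | h8 | ⟨h8, -⟩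
    · exact h8
    · exact absurd (h.sub _ (by rw [h8.mem]; simp)) hself.1
    · exact absurd (h.sub _ (by rw [h8]; exact D.toVx.kV')) hself.1

/-- **DE10**: `p` a common neighbour of `z` and `V`, `q` an exact `cd`-point of `S(z)`,
`V + q - z` an exact `xe`-point of `S(V)`, `f ∈ T p`: the point `p + q - z` has the colour `x'` and
only the colours `x'`, `f` -/
theorem overlap (D : Del U T z V x x' c d e f ρ σ) (h : Irr U T) {p q : ℂ}
    (hpz : dist p z = 1) (hpV : dist p V = 1) (hq : Arc T z q {c, d})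
    (hw : Arc T V (V + q - z) {x, e}) (hqp : q ≠ p) (hqp2 : q + p ≠ 2 * z)
    (hwp : V + q - z ≠ p) (hwp2 : V + q - z + p ≠ 2 * V) (hfp : f ∈ T p) :
    T (p + q - z) ⊆ {x', f} ∧ x' ∈ T (p + q - z) := by
  have hd : dist (p + q - z) p = 1 := by
    rw [dist_eq_norm, show p + q - z - p = q - z by ring, ← dist_eq_norm]; exact hq.1
  have h1 := h.mx.shell2 hq.1 (P := {c, d}) (hq.2.mono fun q' hq' => by
    rw [← hq']; exact h.sub q') (v := p + q - z) (by
      rw [dist_eq_norm, show q - (p + q - z) = -(p - z) by ring, norm_neg, ← dist_eq_norm]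
      exact hpz) (fun hcon => hqp2 (by linear_combination hcon))
    (fun hcon => hqp (by linear_combination -hcon))
  have h2 := h.mx.shell2 hw.1 (P := {x, e}) (hw.2.mono fun q' hq' => by
    rw [← hq']; exact h.sub q') (v := p + q - z) (by
      rw [dist_eq_norm, show V + q - z - (p + q - z) = -(p - V) by ring, norm_neg,
        ← dist_eq_norm]
      exact hpV) (fun hcon => hwp2 (by linear_combination hcon))
    (fun hcon => hwp (by linear_combination -hcon))
  have hsub : T (p + q - z) ⊆ {x', f} := by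
    intro i hi
    rcases D.cov i with rfl | rfl | rfl | rfl | rfl | rfl
    · exact absurd (h.sub _ hi) (Set.disjoint_left.1 h2 (by simp))
    · simp
    · exact absurd (h.sub _ hi) (Set.disjoint_left.1 h1 (by simp))
    · exact absurd (h.sub _ hi) (Set.disjoint_left.1 h1 (by simp))
    · exact absurd (h.sub _ hi) (Set.disjoint_left.1 h2 (by simp))
    · simp
  refine ⟨hsub, ?_⟩
  by_contra hcon
  refine h.not_single (h.sub _ hfp) hd fun i hi => ?_
  rcases hsub hi with rfl | h3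
  · exact absurd hi hcon
  · exact h3

end Del

end Vale.Agent.P032.Six
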