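import Vale.Agent.P032.H630.Germ4
import Vale.Agent.P032.H587.Pair

/-!
# P032: exact points, exact transfer, and bad ends at an alpha point

Frame `Irr U T`, six colours.

* `Irr.int_or_beta` : `z` a two-pair centre `ab | cd`, `x ∈ S(z)`, `T ⊆ T z` near `x` on `S(z)`: then
  `x` is interior to an exact `ab`- or `cd`-arc, or `T x = T z` with exact `ab` on one side, exact
  `cd` on the other side.
* `Irr.transfer` : an exact `P`-point `p` of `S(z)`, `V ∈ S(z)` a two-pair centre with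
  `P ∪ T V` everything: the same trichotomy for `V + p - z` on `S(V)`.
* `Irr.one_owner`, `Irr.owner_sign` : the owners of the boundary rays at `V`.
* `Irr.bad_end` : the bad ends at an alpha point.
-/

open Set Filter Topology Metric

noncomputable section

namespace Vale.Agent.P032.Six

variable {U : Fin 6 → Set ℂ} {T : ℂ → Set (Fin 6)}

theorem tendsto_hb_sphere {z v : ℂ} (hv : dist v z = 1) (τ : ℝ) :
    Tendsto (hb z v τ) (𝓝[>] 0) (𝓝[sphere z 1] v) :=
  tendsto_nhdsWithin_iff.2 ⟨tendsto_hb z v τ, Eventually.of_forall fun t => dist_hb hv τ t⟩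

/-- a colour occurring on a half branch arbitrarily near `v` is in `T v` -/
theorem Irr.mem_hb_fr (h : Irr U T) {z v : ℂ} {i : Fin 6} {τ : ℝ}
    (hf : ∃ᶠ t : ℝ in 𝓝[>] 0, i ∈ T (hb z v τ t)) : i ∈ T v := by
  by_contra hcon
  refine hf ?_
  filter_upwards [(tendsto_hb z v τ).eventually (h.nhd v)] with t ht h2 using hcon (ht h2)

theorem Irr.mem_hb_eq (h : Irr U T) {z v : ℂ} {i : Fin 6} {τ : ℝ} {P : Set (Fin 6)} (hi : i ∈ P)
    (hf : ∀ᶠ t : ℝ in 𝓝[>] 0, T (hb z v τ t) = P) : i ∈ T v := by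
  refine h.mem_hb_fr (z := z) (τ := τ) (Eventually.frequently ?_)
  filter_upwards [hf] with t ht
  rw [ht]; exact hi

/-- **Points of `S(z)` near which only colours of `T z` occur.** -/
theorem Irr.int_or_beta (h : Irr U T) {z x : ℂ} {a b c d : Fin 6} (hz : DPt T z a b c d)
    (hx : dist x z = 1) (hT : ∀ᶠ q in 𝓝[sphere z 1] x, T q ⊆ T z) :
    Arc T z x {a, b} ∨ Arc T z x {c, d} ∨ (T x = T z ∧ ∃ τ : ℝ, (τ = 1 ∨ τ = -1) ∧
      (∀ᶠ t : ℝ in 𝓝[>] 0, T (hb z x τ t) = {a, b}) ∧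
      ∀ᶠ t : ℝ in 𝓝[>] 0, T (hb z x (-τ) t) = {c, d}) := by
  have haz : a ∈ T z := by rw [hz.pal]; simp
  have hbz : b ∈ T z := by rw [hz.pal]; simp
  have hcz : c ∈ T z := by rw [hz.pal]; simp
  have hdz : d ∈ T z := by rw [hz.pal]; simp
  have hxT : T x ⊆ T z := hT.self_of_nhdsWithin (show x ∈ sphere z 1 from hx)
  have hs : ∀ τ : ℝ, ∀ᶠ t : ℝ in 𝓝[>] 0, T (hb z x τ t) ⊆ T z := fun τ =>
    (tendsto_hb_sphere hx τ).eventually hT
  have hex : ∀ τ : ℝ, (τ = 1 ∨ τ = -1) → (∀ᶠ t : ℝ in 𝓝[>] 0, T (hb z x τ t) = {a, b}) ∨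
      ∀ᶠ t : ℝ in 𝓝[>] 0, T (hb z x τ t) = {c, d} := by
    intro τ hτ
    rcases h.half_zone hz hx hτ with h1 | h1
    · exact Or.inr (h.half_exact hz.swap hx hτ (hs τ) h1)
    · exact Or.inl (h.half_exact hz hx hτ (hs τ) h1)
  have hall : ∀ τ : ℝ, (∀ᶠ t : ℝ in 𝓝[>] 0, T (hb z x τ t) = {a, b}) →
      (∀ᶠ t : ℝ in 𝓝[>] 0, T (hb z x (-τ) t) = {c, d}) → T x = T z := by
    intro τ h1 h2
    refine Subset.antisymm hxT ?_
    rw [hz.pal]
    rintro i (rfl | rfl | rfl | hi)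
    · exact h.mem_hb_eq (by simp) h1
    · exact h.mem_hb_eq (by simp) h1
    · exact h.mem_hb_eq (by simp) h2
    · rw [mem_singleton_iff] at hi
      subst hi
      exact h.mem_hb_eq (by simp) h2
  have hint : ∀ {a b c d : Fin 6}, DPt T z a b c d →
      (∀ᶠ t : ℝ in 𝓝[>] 0, T (hb z x 1 t) = {a, b}) →
      (∀ᶠ t : ℝ in 𝓝[>] 0, T (hb z x (-1) t) = {a, b}) → Arc T z x {a, b} := by
    intro a b c d hz h1 h2
    have haz : a ∈ T z := by rw [hz.pal]; simp
    have hbz : b ∈ T z := by rw [hz.pal]; simp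
    have hno := h.both_sides hz hx (h.arcs_of_exact hz.ab haz hbz hx h1).frequently
      (h.arcs_of_exact hz.ab haz hbz hx h2).frequently
    refine ⟨hx, ev_of_hb hx (p := fun q => T q = {a, b}) ?_ h1 h2⟩
    refine Subset.antisymm (fun i hi => ?_) ?_
    · have := hxT hi
      rw [hz.pal] at this
      rcases this with rfl | rfl | rfl | h3
      · simp
      · simp
      · exact absurd (h.sub _ hi) hno.1
      · rw [mem_singleton_iff] at h3
        subst h3
        exact absurd (h.sub _ hi) hno.2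
    · rintro i (rfl | hi)
      · exact h.mem_hb_eq (by simp) h1
      · rw [mem_singleton_iff] at hi
        subst hi
        exact h.mem_hb_eq (by simp) h1
  rcases hex 1 (Or.inl rfl) with h1 | h1 <;> rcases hex (-1) (Or.inr rfl) with h2 | h2
  · exact Or.inl (hint hz h1 h2)
  · exact Or.inr (Or.inr ⟨hall 1 h1 h2, 1, Or.inl rfl, h1, h2⟩)
  · refine Or.inr (Or.inr ⟨hall (-1) h2 (by rw [neg_neg]; exact h1), -1, Or.inr rfl, h2, ?_⟩)
    rw [neg_neg]; exact h1
  · exact Or.inr (Or.inl (hint hz.swap h1 h2))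

/-- three-coloured points of `S(z)` have a colour outside `T z` -/
theorem Irr.three_out (h : Irr U T) {z x : ℂ} {a b c d : Fin 6} (hz : DPt T z a b c d)
    (hx : dist x z = 1) (h3 : (T x).ncard = 3) : ∃ i ∈ T x, i ∉ T z := by
  by_contra hcon
  push Not at hcon
  have hT : ∀ᶠ q in 𝓝[sphere z 1] x, T q ⊆ T z := by
    filter_upwards [mem_nhdsWithin_of_mem_nhds (h.nhd x)] with q hq using
      fun i hi => hcon i (hq hi)
  rcases h.int_or_beta hz hx hT with h1 | h1 | ⟨h1, -⟩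
  · rw [h1.mem, Set.ncard_pair hz.ab] at h3; omega
  · rw [h1.mem, Set.ncard_pair hz.cd] at h3; omega
  · rw [h1, hz.pal] at h3
    have : ({a, b, c, d} : Set (Fin 6)).ncard = 4 := by
      rw [Set.ncard_insert_of_notMem (by simp [hz.ab, hz.ac, hz.ad]),
        Set.ncard_insert_of_notMem (by simp [hz.bc, hz.bd]), Set.ncard_pair hz.cd]
    omega

/-- **Exact transfer.** -/
theorem Irr.transfer (h : Irr U T) {z V p : ℂ} {x k x' k' : Fin 6} {P : Set (Fin 6)}
    (hV : dist V z = 1) (hDV : DPt T V x k x' k') (hp : Arc T z p P)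
    (hPV : ∀ i, i ∈ P ∨ i ∈ T V) (hne : p ≠ V) (hne2 : p + V ≠ 2 * z) :
    Arc T V (V + p - z) {x, k} ∨ Arc T V (V + p - z) {x', k'} ∨
      (T (V + p - z) = T V ∧ ∃ τ : ℝ, (τ = 1 ∨ τ = -1) ∧
        (∀ᶠ t : ℝ in 𝓝[>] 0, T (hb V (V + p - z) τ t) = {x, k}) ∧
        ∀ᶠ t : ℝ in 𝓝[>] 0, T (hb V (V + p - z) (-τ) t) = {x', k'}) := by
  refine h.int_or_beta hDV ?_ ?_
  · rw [dist_eq_norm, show V + p - z - V = p - z by ring, ← dist_eq_norm]; exact hp.1
  · refine h.arc_transfer hV hp.1 ?_ hPV hne hne2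
    filter_upwards [hp.2] with q hq
    rw [← hq]; exact h.sub q

end Vale.Agent.P032.Six
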