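import Vale.Agent.P032.H630.Owner
import Vale.Agent.P032.S5.H843.Core7

/-!
# P032: bad ends at an alpha point

Frame `Irr U T`, six colours, `z` a two-pair centre `x x' | c d`, `V ∈ S(z)` a two-pair centre
`x k | x' k'`, the exact `x x'`-arc of `S(z)` on the half branch `ρ` at `V`, `σ = 1` if `x` is inside
`S(z)` at `V` (else `-1`), `q ∈ S(z)` with `T q = {c, d, k}`, `w = V + q - z`.

* `Irr.half_third` : the half branch `ρ` of `S(q)` at `w` misses `x, x'` and carries `k'`.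
* `Irr.half_kl` : the half branches of `S(w)` at `q`.
* `Irr.bad_end` : if `x, k ∈ T w` then the exact `xk`-arcs of `S(V)` at `w` are on the half branch
  `ρ σ` only, `w` owns the ray `x | k'` of `V`, and `w` is a beta partner of `V` or
  `T w = {x, k, k', l}`, `l ∈ {c, d}`, `w = (k l | x k')` and a delta partner of `V`.
* `Irr.bad_unique` : at most one bad end for each of the two pairs of `V`.
-/

open Set Filter Topology Metric

noncomputable section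

namespace Vale.Agent.P032.Six

variable {U : Fin 6 → Set ℂ} {T : ℂ → Set (Fin 6)}

theorem hb_trans (z V q : ℂ) (τ t : ℝ) : hb q (V + q - z) τ t = hb z V τ t + q - z := by
  unfold hb; ring

theorem hb_trans' (z V q : ℂ) (τ t : ℝ) : hb (V + q - z) q τ t = hb V z τ t + q - z := by
  unfold hb; ring

theorem dist_trans1 {z V q : ℂ} (hV : dist V z = 1) : dist (V + q - z) q = 1 := by
  rw [dist_eq_norm, show V + q - z - q = V - z by ring, ← dist_eq_norm]; exact hV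

theorem dist_trans2 {z V q : ℂ} (hq : dist q z = 1) : dist (V + q - z) V = 1 := by
  rw [dist_eq_norm, show V + q - z - V = q - z by ring, ← dist_eq_norm]; exact hq

/-- a property of a half branch holds near its points on the circle -/
theorem hb_nhds {z v : ℂ} (hv : dist v z = 1) {τ : ℝ} (hτ : τ = 1 ∨ τ = -1) {p : ℂ → Prop}
    (hp : ∀ᶠ t : ℝ in 𝓝[>] 0, p (hb z v τ t)) :
    ∀ᶠ t : ℝ in 𝓝[>] 0, ∀ᶠ q in 𝓝[sphere z 1] (hb z v τ t), p q := by
  obtain ⟨δ, hδ, hsub⟩ := mem_nhdsGT_iff_exists_Ioo_subset.1 hp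
  have hτ2 : τ * τ = 1 := by rcases hτ with rfl | rfl <;> norm_num
  filter_upwards [Ioo_mem_nhdsGT hδ] with t ht
  rw [eventually_circle (dist_hb hv τ t)]
  have h1 : Tendsto (fun r : ℝ => t + τ * r) (𝓝 0) (𝓝 t) := by
    have : Continuous fun r : ℝ => t + τ * r := by fun_prop
    have h2 := this.tendsto 0
    simpa using h2
  filter_upwards [h1.eventually (isOpen_Ioo.mem_nhds ht)] with r hr
  have h3 : p (hb z v τ (t + τ * r)) := hsub hr
  have e : z + (hb z v τ t - z) * cis r = hb z v τ (t + τ * r) := by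
    unfold hb
    rw [show τ * (t + τ * r) = τ * t + r by rw [mul_add, ← mul_assoc, hτ2, one_mul],
      cis_add394]
    ring
  rw [e]; exact h3

/-- a colour carried by the half branch `τ` of `S(z)` at `V` is absent on the half branch `τ` of
`S(q)` at `V + q - z` -/
theorem Mx.half_shift (h : Mx U) {z V q : ℂ} {i : Fin 6} {τ : ℝ} (hτ : τ = 1 ∨ τ = -1)
    (hV : dist V z = 1) (hq : dist q z = 1) (hne : q ≠ V) (hne2 : V + q ≠ 2 * z)
    (hi : ∀ᶠ t : ℝ in 𝓝[>] 0, i ∈ Pal U (hb z V τ t)) :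
    ∀ᶠ t : ℝ in 𝓝[>] 0, i ∉ Pal U (hb q (V + q - z) τ t) := by
  have h1 : ∀ᶠ p in 𝓝 V, q ≠ p ∧ p + q ≠ 2 * z := by
    filter_upwards [isOpen_ne.mem_nhds hne.symm,
      (isOpen_ne_fun (continuous_id.add continuous_const) continuous_const).mem_nhds hne2]
      with p m1 m2 using ⟨Ne.symm m1, m2⟩
  filter_upwards [hb_nhds (p := fun p => i ∈ Pal U p) hV hτ hi,
    (tendsto_hb z V τ).eventually h1] with t ht h2
  have hd : dist (hb z V τ t) (hb z V τ t + q - z) = 1 := by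
    rw [dist_comm, dist_eq_norm, show hb z V τ t + q - z - hb z V τ t = q - z by ring,
      ← dist_eq_norm]
    exact hq
  have h3 := h.shell2 (dist_hb hV τ t) (P := {i}) (ht.mono fun q' hq' => by
    rintro j hj; rw [mem_singleton_iff] at hj; subst hj; exact hq') (v := hb z V τ t + q - z) hd
    (fun hcon => h2.2 (by linear_combination hcon)) (fun hcon => h2.1 (by linear_combination hcon))
  rw [hb_trans]
  exact Set.disjoint_left.1 h3 rfl

/-- a colour carried by the half branch `τ` of `S(V)` at `z` is absent on the half branch `τ` of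
`S(V + q - z)` at `q` -/
theorem Mx.half_shift' (h : Mx U) {z V q : ℂ} {i : Fin 6} {τ : ℝ} (hτ : τ = 1 ∨ τ = -1)
    (hV : dist V z = 1) (hq : dist q z = 1) (hne : q ≠ V) (hne2 : V + q ≠ 2 * z)
    (hi : ∀ᶠ t : ℝ in 𝓝[>] 0, i ∈ Pal U (hb V z τ t)) :
    ∀ᶠ t : ℝ in 𝓝[>] 0, i ∉ Pal U (hb (V + q - z) q τ t) := by
  have h1 := h.half_shift (z := V) (V := z) (q := V + q - z) hτ
    (by rw [dist_comm]; exact hV) (dist_trans2 hq)
    (fun hcon => hne2 (by linear_combination hcon))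
    (fun hcon => hne (by linear_combination hcon)) hi
  rwa [show z + (V + q - z) - V = q by ring] at h1

/-- **The half branch `ρ` of `S(q)` at `w`** -/
theorem Irr.half_third (h : Irr U T) {z V q : ℂ} {x x' c d k k' : Fin 6} {ρ : ℝ}
    (hcov : ∀ i, i = x ∨ i = x' ∨ i = c ∨ i = d ∨ i = k ∨ i = k') (hV : dist V z = 1)
    (hq : dist q z = 1) (hρ : ρ = 1 ∨ ρ = -1)
    (hex : ∀ᶠ t : ℝ in 𝓝[>] 0, x ∈ Pal U (hb z V ρ t) ∧ x' ∈ Pal U (hb z V ρ t))
    (hTq : T q = {c, d, k}) (hne : q ≠ V) (hne2 : V + q ≠ 2 * z) :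
    ∀ᶠ t : ℝ in 𝓝[>] 0, x ∉ Pal U (hb q (V + q - z) ρ t) ∧ x' ∉ Pal U (hb q (V + q - z) ρ t) ∧
      k' ∈ T (hb q (V + q - z) ρ t) := by
  have h3 : (T q).ncard ≤ 3 := by
    rw [hTq]
    exact (Set.ncard_insert_le _ _).trans (by
      have := Set.ncard_insert_le d ({k} : Set (Fin 6))
      rw [Set.ncard_singleton] at this
      omega)
  filter_upwards [h.mx.half_shift hρ hV hq hne hne2 (hex.mono fun t ht => ht.1),
    h.mx.half_shift hρ hV hq hne hne2 (hex.mono fun t ht => ht.2)] with t h1 h2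
  refine ⟨h1, h2, ?_⟩
  obtain ⟨i, hi, hiq⟩ := h.not_sub' (dist_hb (dist_trans1 (q := q) hV) ρ t) h3
  rw [hTq] at hiq
  rcases hcov i with rfl | rfl | rfl | rfl | rfl | rfl
  · exact absurd (h.sub _ hi) h1
  · exact absurd (h.sub _ hi) h2
  · exact absurd (by simp) hiq
  · exact absurd (by simp) hiq
  · exact absurd (by simp) hiq
  · exact hi

/-- **Half branches of `S(w)` at `q`**: for `l ∈ {c, d}`, `k, l ∈ T w`, one of them is an exact
`kl`-arc -/
theorem Irr.half_kl (h : Irr U T) {z V q : ℂ} {x x' c d k l : Fin 6} (hz : DPt T z x x' c d)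
    (hV : dist V z = 1) (hxV : x ∈ T V) (hxV' : x' ∈ T V) (hq : dist q z = 1)
    (hTq : T q = {c, d, k}) (hl : l = c ∨ l = d) (hne : q ≠ V) (hne2 : V + q ≠ 2 * z)
    (hkw : k ∈ T (V + q - z)) (hlw : l ∈ T (V + q - z)) :
    ∃ τ : ℝ, (τ = 1 ∨ τ = -1) ∧
      ∀ᶠ t : ℝ in 𝓝[>] 0, T (hb (V + q - z) q τ t) = {k, l} := by
  have hzV : dist z V = 1 := by rw [dist_comm]; exact hV
  have hqw : dist q (V + q - z) = 1 := by rw [dist_comm]; exact dist_trans1 hV
  obtain ⟨τ, hτ, h1, h2⟩ := h.germ_flip (z := V) (v := z) hxV hxV' hz hzV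
  have hτ' : -τ = 1 ∨ -τ = -1 := by rcases hτ with rfl | rfl <;> simp
  have key : ∀ {m n : Fin 6} {τ : ℝ}, (τ = 1 ∨ τ = -1) → T q ⊆ {m, n, k} →
      (∀ᶠ t : ℝ in 𝓝[>] 0, m ∈ T (hb V z τ t)) → n ∈ T (V + q - z) →
      ∀ᶠ t : ℝ in 𝓝[>] 0, T (hb (V + q - z) q τ t) = {k, n} := by
    intro m n τ hτ hT hm hn
    have h3 := h.mx.half_shift' hτ hV hq hne hne2 (hm.mono fun t ht => h.sub _ ht)
    refine h.hb_exact hqw ?_ (h.sub _ hkw) (h.sub _ hn)
    filter_upwards [h3, (tendsto_hb (V + q - z) q τ).eventually (h.nhd q)] with t h4 h5 i hi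
    rcases hT (h5 hi) with rfl | rfl | h6
    · exact absurd (h.sub _ hi) h4
    · simp
    · rw [mem_singleton_iff] at h6; subst h6; simp
  rcases hl with rfl | rfl
  · refine ⟨-τ, hτ', key hτ' ?_ (h2.mono fun t ht => ht.1) hlw⟩
    rw [hTq]; intro i hi; simp only [mem_insert_iff, mem_singleton_iff] at hi ⊢; tauto
  · refine ⟨τ, hτ, key hτ ?_ (h1.mono fun t ht => ht.1) hlw⟩
    rw [hTq]

/-- **The sign of a bad end**: `x` is carried by the half branch `ρ` of `S(z)` at `V` and by the half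
branch `τ` of `S(w)` at `V`, missed by the half branch `-τ` (`k` inside `S(V)` at `w`) or `τ` (`x`
inside) of `S(V)` at `w`.  Then the exact `xk`-arcs of `S(V)` at `w` are on the half branch `ρ σ`. -/
theorem Irr.bad_sign (h : Irr U T) {z V w : ℂ} {x x' k : Fin 6} {ρ σ τ s : ℝ}
    (hVz : dist V z = 1) (hwV : dist w V = 1) (h1 : w ≠ z) (h2 : w + z ≠ 2 * V)
    (hρ : ρ = 1 ∨ ρ = -1) (hτ : τ = 1 ∨ τ = -1) (hs1 : s = 1 ∨ s = -1)
    (hσ : Ori U z V x x' σ) (hx : ∀ᶠ t : ℝ in 𝓝[>] 0, x ∈ Pal U (hb z V ρ t))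
    (hx2 : ∀ᶠ t : ℝ in 𝓝[>] 0, x ∈ Pal U (hb w V τ t))
    (hside : (Sd U V w k x ∧ ∀ᶠ t : ℝ in 𝓝[>] 0, x ∉ Pal U (hb V w (-τ) t)) ∨
      (Sd U V w x k ∧ ∀ᶠ t : ℝ in 𝓝[>] 0, x ∉ Pal U (hb V w τ t)))
    (hs : ∃ᶠ t : ℝ in 𝓝[>] 0, Arc T V (hb V w s t) {x, k}) : s = ρ * σ := by
  have hzV : dist z V = 1 := by rw [dist_comm]; exact hVz
  have hVw : dist V w = 1 := by rw [dist_comm]; exact hwV
  have hno : ∀ {τ' : ℝ}, (∀ᶠ t : ℝ in 𝓝[>] 0, x ∉ Pal U (hb V w τ' t)) → s ≠ τ' := by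
    rintro τ' hτ' rfl
    obtain ⟨t, h3, h4⟩ := (hs.and_eventually hτ').exists
    exact h4 (h.sub _ (by rw [h3.mem]; simp))
  have hsg := sg_swap z V w
  have hA := hσ.sign hVw hzV (Ne.symm h1) (by rwa [add_comm]) hτ hx2
  rw [hsg] at hA
  rcases hside with ⟨hS, hn⟩ | ⟨hS, hn⟩
  · have hB := h.sign_second hVz hwV h1 h2 hρ hx hs (σ' := -1) (Or.inr ⟨rfl, hS⟩)
    have h3 := hno hn
    have h4 : s = τ := by
      rcases hs1 with rfl | rfl <;> rcases hτ with rfl | rfl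
      · rfl
      · exact absurd (by norm_num) h3
      · exact absurd (by norm_num) h3
      · rfl
    subst h4
    rcases hσ with ⟨rfl, -⟩ | ⟨rfl, -⟩ <;> rcases hρ with rfl | rfl <;>
      rcases hs1 with rfl | rfl <;> norm_num <;> nlinarith
  · have hB := h.sign_second hVz hwV h1 h2 hρ hx hs (σ' := 1) (Or.inl ⟨rfl, hS⟩)
    have h3 := hno hn
    have h4 : τ = -s := by
      rcases hs1 with rfl | rfl <;> rcases hτ with rfl | rfl
      · exact absurd rfl h3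
      · norm_num
      · norm_num
      · exact absurd rfl h3
    subst h4
    rcases hσ with ⟨rfl, -⟩ | ⟨rfl, -⟩ <;> rcases hρ with rfl | rfl <;>
      rcases hs1 with rfl | rfl <;> norm_num <;> nlinarith

/-- the hypotheses of a bad end -/
structure BadQ (T : ℂ → Set (Fin 6)) (z V q : ℂ) (x x' c d k k' : Fin 6) : Prop where
  hz : DPt T z x x' c d
  hV : dist V z = 1
  hDV : DPt T V x k x' k'
  kc : k ≠ c
  kd : k ≠ d
  kc' : k' ≠ c
  kd' : k' ≠ d
  hq : dist q z = 1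
  hTq : T q = {c, d, k}
  h4 : (T (V + q - z)).ncard ≤ 4
  hxw : x ∈ T (V + q - z)
  hkw : k ∈ T (V + q - z)

namespace BadQ

variable {z V q : ℂ} {x x' c d k k' : Fin 6}

theorem cov (B : BadQ T z V q x x' c d k k') (i : Fin 6) :
    i = x ∨ i = x' ∨ i = c ∨ i = d ∨ i = k ∨ i = k' := by
  obtain ⟨hz, -, hDV, kc, kd, kc', kd', -, -, -, -, -⟩ := B
  have h1 : ({x, x', c, d, k, k'} : Set (Fin 6)).ncard = 6 := by
    rw [Set.ncard_insert_of_notMem (by simp [hz.ab, hz.ac, hz.ad, hDV.ab, hDV.ad]),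
      Set.ncard_insert_of_notMem (by simp [hz.bc, hz.bd, hDV.bc.symm, hDV.cd]),
      Set.ncard_insert_of_notMem (by simp [hz.cd, kc.symm, kc'.symm]),
      Set.ncard_insert_of_notMem (by simp [kd.symm, kd'.symm]), Set.ncard_pair hDV.bd]
  have h2 : ({x, x', c, d, k, k'} : Set (Fin 6)) = univ := by
    refine Set.eq_of_subset_of_ncard_le (subset_univ _) ?_ (Set.toFinite _)
    rw [h1, Set.ncard_univ]; simp
  have h3 : i ∈ ({x, x', c, d, k, k'} : Set (Fin 6)) := by rw [h2]; trivial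
  simpa using h3

theorem xV (B : BadQ T z V q x x' c d k k') : x ∈ T V := by rw [B.hDV.pal]; simp
theorem xV' (B : BadQ T z V q x x' c d k k') : x' ∈ T V := by rw [B.hDV.pal]; simp
theorem kV (B : BadQ T z V q x x' c d k k') : k ∈ T V := by rw [B.hDV.pal]; simp
theorem kV' (B : BadQ T z V q x x' c d k k') : k' ∈ T V := by rw [B.hDV.pal]; simp

theorem ne (B : BadQ T z V q x x' c d k k') : q ≠ V := by
  rintro rfl
  have hxV := B.xV
  rw [B.hTq] at hxV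
  simp only [mem_insert_iff, mem_singleton_iff] at hxV
  rcases hxV with h1 | h1 | h1
  · exact B.hz.ac h1
  · exact B.hz.ad h1
  · exact B.hDV.ab h1

theorem wz (B : BadQ T z V q x x' c d k k') : V + q - z ≠ z := by
  intro hcon
  have := B.hkw
  rw [hcon, B.hz.pal] at this
  simp only [mem_insert_iff, mem_singleton_iff] at this
  rcases this with h1 | h1 | h1 | h1
  · exact B.hDV.ab h1.symm
  · exact B.hDV.bc h1
  · exact B.kc h1
  · exact B.kd h1

theorem ne2 (B : BadQ T z V q x x' c d k k') : V + q ≠ 2 * z :=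
  fun hcon => B.wz (by linear_combination hcon)

theorem w2 (B : BadQ T z V q x x' c d k k') : V + q - z + z ≠ 2 * V :=
  fun hcon => B.ne (by linear_combination hcon)

theorem wV (B : BadQ T z V q x x' c d k k') : dist (V + q - z) V = 1 := dist_trans2 B.hq
theorem Vw (B : BadQ T z V q x x' c d k k') : dist V (V + q - z) = 1 := by
  rw [dist_comm]; exact B.wV

/-- the colour `k'` -/
theorem kw' (B : BadQ T z V q x x' c d k k') (h : Irr U T) {ρ : ℝ} (hρ : ρ = 1 ∨ ρ = -1)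
    (hex : ∀ᶠ t : ℝ in 𝓝[>] 0, x ∈ Pal U (hb z V ρ t) ∧ x' ∈ Pal U (hb z V ρ t)) :
    k' ∈ T (V + q - z) := by
  refine h.mem_hb_fr (z := q) (τ := ρ) (Eventually.frequently ?_)
  filter_upwards [h.half_third B.cov B.hV B.hq hρ hex B.hTq B.ne B.ne2] with t ht using ht.2.2

/-- the fourth colour -/
theorem exists_l (B : BadQ T z V q x x' c d k k') (h : Irr U T) (hk : k' ∈ T (V + q - z)) :
    ∃ l, T (V + q - z) = {x, k, k', l} ∧ l ≠ x ∧ l ≠ k ∧ l ≠ k' := by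
  have hDV := B.hDV
  have h3w : ({x, k, k'} : Set (Fin 6)) ⊆ T (V + q - z) := by
    rintro i (rfl | rfl | hi)
    · exact B.hxw
    · exact B.hkw
    · rw [mem_singleton_iff] at hi; subst hi; exact hk
  have hc3 : ({x, k, k'} : Set (Fin 6)).ncard = 3 := by
    rw [Set.ncard_insert_of_notMem (by simp [hDV.ab, hDV.ad]), Set.ncard_pair hDV.bd]
  obtain ⟨l, hlw, hln⟩ : ∃ l ∈ T (V + q - z), l ∉ ({x, k, k'} : Set (Fin 6)) := by
    by_contra hcon
    push Not at hcon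
    have e : T (V + q - z) = {x, k, k'} := Subset.antisymm hcon h3w
    obtain ⟨i, hi, hiV⟩ := h.three_out hDV B.wV (by rw [e, hc3])
    rw [e] at hi
    rcases hi with rfl | rfl | hi
    · exact hiV B.xV
    · exact hiV B.kV
    · rw [mem_singleton_iff] at hi; subst hi; exact hiV B.kV'
  have hlx : l ≠ x := fun hcon => hln (by simp [hcon])
  have hlk : l ≠ k := fun hcon => hln (by simp [hcon])
  have hlk' : l ≠ k' := fun hcon => hln (by simp [hcon])
  refine ⟨l, ?_, hlx, hlk, hlk'⟩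
  symm
  refine Set.eq_of_subset_of_ncard_le ?_ ?_ (Set.toFinite _)
  · rintro i (rfl | rfl | rfl | hi)
    · exact B.hxw
    · exact B.hkw
    · exact hk
    · rw [mem_singleton_iff] at hi; subst hi; exact hlw
  · refine B.h4.trans (le_of_eq ?_)
    rw [Set.ncard_insert_of_notMem (by simp [hDV.ab, hDV.ad, hlx.symm]),
      Set.ncard_insert_of_notMem (by simp [hDV.bd, hlk.symm]), Set.ncard_pair hlk'.symm]

theorem pal_of_exact (h : Irr U T) {w V : ℂ} {i j : Fin 6} {τ : ℝ}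
    (hh : ∀ᶠ t : ℝ in 𝓝[>] 0, T (hb w V τ t) = {i, j}) :
    ∀ᶠ t : ℝ in 𝓝[>] 0, i ∈ Pal U (hb w V τ t) ∧ j ∈ Pal U (hb w V τ t) := by
  filter_upwards [hh] with t ht
  exact ⟨h.sub _ (by rw [ht]; simp), h.sub _ (by rw [ht]; simp)⟩

/-- **beta partner** -/
theorem beta (B : BadQ T z V q x x' c d k k') (h : Irr U T) {ρ σ : ℝ} (hρ : ρ = 1 ∨ ρ = -1)
    (hex : ∀ᶠ t : ℝ in 𝓝[>] 0, T (hb z V ρ t) = {x, x'}) (hσ : Ori U z V x x' σ)
    (hT : T (V + q - z) = {x, k, k', x'}) :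
    ∃ τ : ℝ, (τ = 1 ∨ τ = -1) ∧ (∀ᶠ t : ℝ in 𝓝[>] 0, T (hb (V + q - z) V τ t) = {x, k'}) ∧
      (∀ s : ℝ, (s = 1 ∨ s = -1) →
        (∃ᶠ t : ℝ in 𝓝[>] 0, Arc T V (hb V (V + q - z) s t) {x, k}) → s = ρ * σ) ∧
      T (V + q - z) = T V ∧ DPt T (V + q - z) x k' k x' := by
  have hDV := B.hDV
  have hTwV : T (V + q - z) = T V := by
    rw [hT, hDV.pal]; ext i; simp only [mem_insert_iff, mem_singleton_iff]; tauto
  have hD : DPt T (V + q - z) x k' k x' := by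
    rcases h.beta4_dpt hDV B.wV hTwV with h1 | h1
    · exfalso
      obtain ⟨τ, hτ, h2, -⟩ := h.germ_beta4 h1 B.Vw hTwV.symm
      exact B.wz (h.owner_unique B.hz B.hV B.Vw hτ h2).symm
    · exact h1
  obtain ⟨τ, hτ, h1, -⟩ := h.germ_beta4 hD B.Vw hTwV.symm
  have hJ := pal_of_exact h h1
  refine ⟨τ, hτ, h1, fun s hs hf => ?_, hTwV, hD⟩
  have hsub : T (V + q - z) ⊆ {k, x, k', x'} := by
    rw [hT]; intro i hi; simp only [mem_insert_iff, mem_singleton_iff] at hi ⊢; tauto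
  refine h.bad_sign B.hV B.wV B.wz B.w2 hρ hτ hs hσ ((pal_of_exact h hex).mono fun t ht => ht.1)
    (hJ.mono fun t ht => ht.1) ?_ hf
  rcases h.sides hDV B.wV with hS | hS
  · exact Or.inr ⟨hS, (h.nappe_in B.wV hsub (h.sub _ B.xV) (h.sub _ B.kV') hτ hJ hS).mono
      fun t ht => ht.2⟩
  · exact Or.inl ⟨hS, (h.nappe_out B.wV hsub (h.sub _ B.xV) (h.sub _ B.kV') hτ hJ hS).mono
      fun t ht => ht.2⟩

/-- the alternative `kk'` of a delta partner does not occur -/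
theorem no_kk (B : BadQ T z V q x x' c d k k') (h : Irr U T) (hmin : Mn U T) {l : Fin 6}
    {p : ℂ} {τ : ℝ} (hT : T (V + q - z) = {x, k, k', l}) (hlx : l ≠ x) (hlk : l ≠ k)
    (hlk' : l ≠ k') (hp : Arc T (V + q - z) p {k, l})
    (hD : ∀ᶠ t : ℝ in 𝓝[>] 0, T (hb (V + q - z) V τ t) = {k, k'}) : False := by
  have hDV := B.hDV
  obtain ⟨q', hq', hTq'⟩ := hb_exists B.Vw hD
  have hpd := h.pairs_disjoint hmin (z := V + q - z) (q1 := p) (q2 := q') (by
      rw [hT, Set.ncard_insert_of_notMem (by simp [hDV.ab, hDV.ad, hlx.symm]),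
        Set.ncard_insert_of_notMem (by simp [hDV.bd, hlk.symm]), Set.ncard_pair hlk'.symm])
    hp.1 hq' (by
      rw [hp.mem, hT]; rintro i (rfl | hi)
      · simp
      · rw [mem_singleton_iff] at hi; subst hi; simp) (by
      rw [hTq', hT]; rintro i (rfl | hi)
      · simp
      · rw [mem_singleton_iff] at hi; subst hi; simp)
    (by rw [hp.mem]; exact Set.ncard_pair hlk.symm)
    (by rw [hTq']; exact Set.ncard_pair hDV.bd)
  rw [hp.mem, hTq'] at hpd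
  rcases hpd with h1 | h1
  · have : l ∈ ({k, k'} : Set (Fin 6)) := by rw [← h1]; simp
    simp only [mem_insert_iff, mem_singleton_iff] at this
    rcases this with h2 | h2
    · exact hlk h2
    · exact hlk' h2
  · exact Set.disjoint_left.1 h1 (show k ∈ ({k, l} : Set (Fin 6)) by simp) (by simp)

/-- **delta partner** -/
theorem delta (B : BadQ T z V q x x' c d k k') (h : Irr U T) (hmin : Mn U T) {ρ σ : ℝ}
    {l : Fin 6} (hρ : ρ = 1 ∨ ρ = -1)
    (hex : ∀ᶠ t : ℝ in 𝓝[>] 0, T (hb z V ρ t) = {x, x'}) (hσ : Ori U z V x x' σ)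
    (hl : l = c ∨ l = d) (hT : T (V + q - z) = {x, k, k', l}) (hlx : l ≠ x) (hlk : l ≠ k)
    (hlk' : l ≠ k') :
    ∃ τ : ℝ, (τ = 1 ∨ τ = -1) ∧ (∀ᶠ t : ℝ in 𝓝[>] 0, T (hb (V + q - z) V τ t) = {x, k'}) ∧
      (∀ s : ℝ, (s = 1 ∨ s = -1) →
        (∃ᶠ t : ℝ in 𝓝[>] 0, Arc T V (hb V (V + q - z) s t) {x, k}) → s = ρ * σ) ∧
      DPt T (V + q - z) k l x k' ∧ Delta4 U T V (V + q - z) x k k' x' l τ := by
  have hDV := B.hDV
  have hlw : l ∈ T (V + q - z) := by rw [hT]; simp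
  have hkw' : k' ∈ T (V + q - z) := by rw [hT]; simp
  -- exact `kl`-arc of `S(w)`
  obtain ⟨p, hp⟩ : ∃ p, Arc T (V + q - z) p {k, l} := by
    obtain ⟨τ, -, h1⟩ := h.half_kl B.hz B.hV B.xV B.xV' B.hq B.hTq hl B.ne B.ne2 B.hkw hlw
    have hqw : dist q (V + q - z) = 1 := by rw [dist_comm]; exact dist_trans1 B.hV
    obtain ⟨t, ht⟩ := (h.arcs_of_exact hlk.symm B.hkw hlw hqw h1).exists
    exact ⟨_, ht⟩
  obtain ⟨τ, hD | hD⟩ := h.germ_delta4 hDV.swap34 B.wV hT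
  · have hxk : ∃ p, Arc T (V + q - z) p {x, k'} := by
      obtain ⟨t, ht⟩ := (h.arcs_of_exact hDV.ad B.hxw hkw' B.Vw hD.exact).exists
      exact ⟨_, ht⟩
    have hDw : DPt T (V + q - z) k l x k' :=
      { pal := by rw [hT]; ext i; simp only [mem_insert_iff, mem_singleton_iff]; tauto
        ac := hDV.ab.symm
        ad := hDV.bd
        bc := hlx
        bd := hlk'
        ab := hlk.symm
        cd := hDV.ad
        arc1 := ⟨p, hp⟩
        arc2 := hxk }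
    refine ⟨τ, hD.sgn, hD.exact, fun s hs hf => ?_, hDw, hD⟩
    refine h.bad_sign B.hV B.wV B.wz B.w2 hρ hD.sgn hs hσ
      ((pal_of_exact h hex).mono fun t ht => ht.1)
      ((pal_of_exact h hD.exact).mono fun t ht => ht.1) ?_ hf
    rcases hD.side with ⟨hS, hn⟩ | ⟨hS, hn⟩
    · exact Or.inl ⟨hS, hn.mono fun t ht => ht.2⟩
    · exact Or.inr ⟨hS, hn.mono fun t ht => ht.2⟩
  · exact (B.no_kk h hmin hT hlx hlk hlk' hp hD.exact).elim

end BadQ

/-- **Bad ends at an alpha point.** -/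
theorem Irr.bad_end (h : Irr U T) (hmin : Mn U T) {z V q : ℂ} {x x' c d k k' : Fin 6} {ρ σ : ℝ}
    (B : BadQ T z V q x x' c d k k') (hρ : ρ = 1 ∨ ρ = -1)
    (hex : ∀ᶠ t : ℝ in 𝓝[>] 0, T (hb z V ρ t) = {x, x'}) (hσ : Ori U z V x x' σ) :
    ∃ τ : ℝ, (τ = 1 ∨ τ = -1) ∧ (∀ᶠ t : ℝ in 𝓝[>] 0, T (hb (V + q - z) V τ t) = {x, k'}) ∧
      (∀ s : ℝ, (s = 1 ∨ s = -1) →
        (∃ᶠ t : ℝ in 𝓝[>] 0, Arc T V (hb V (V + q - z) s t) {x, k}) → s = ρ * σ) ∧
      ((T (V + q - z) = T V ∧ DPt T (V + q - z) x k' k x') ∨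
        ∃ l, (l = c ∨ l = d) ∧ T (V + q - z) = {x, k, k', l} ∧ DPt T (V + q - z) k l x k' ∧
          Delta4 U T V (V + q - z) x k k' x' l τ) := by
  have hk := B.kw' h hρ (BadQ.pal_of_exact h hex)
  obtain ⟨l, hT, hlx, hlk, hlk'⟩ := B.exists_l h hk
  rcases B.cov l with h1 | h1 | h1 | h1 | h1 | h1
  · exact absurd h1 hlx
  · subst h1
    obtain ⟨τ, hτ, h2, h3, h4⟩ := B.beta h hρ hex hσ hT
    exact ⟨τ, hτ, h2, h3, Or.inl h4⟩
  · obtain ⟨τ, hτ, h2, h3, h4, h5⟩ := B.delta h hmin hρ hex hσ (Or.inl h1) hT hlx hlk hlk'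
    exact ⟨τ, hτ, h2, h3, Or.inr ⟨l, Or.inl h1, hT, h4, h5⟩⟩
  · obtain ⟨τ, hτ, h2, h3, h4, h5⟩ := B.delta h hmin hρ hex hσ (Or.inr h1) hT hlx hlk hlk'
    exact ⟨τ, hτ, h2, h3, Or.inr ⟨l, Or.inr h1, hT, h4, h5⟩⟩
  · exact absurd h1 hlk
  · exact absurd h1 hlk'

/-- **At most one bad end for each pair of `V`.** -/
theorem Irr.bad_unique (h : Irr U T) (hmin : Mn U T) {z V q1 q2 : ℂ} {x x' c d k k' : Fin 6}
    {ρ : ℝ} (B1 : BadQ T z V q1 x x' c d k k') (B2 : BadQ T z V q2 x x' c d k k')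
    (hρ : ρ = 1 ∨ ρ = -1) (hex : ∀ᶠ t : ℝ in 𝓝[>] 0, T (hb z V ρ t) = {x, x'}) : q1 = q2 := by
  obtain ⟨σ, hσ⟩ := h.exists_ori B1.hz B1.hV
  obtain ⟨τ1, hτ1, e1, -, h1⟩ := h.bad_end hmin B1 hρ hex hσ
  obtain ⟨τ2, hτ2, e2, -, h2⟩ := h.bad_end hmin B2 hρ hex hσ
  have hw : V + q1 - z = V + q2 - z := by
    rcases h1 with ⟨-, D1⟩ | ⟨l1, -, -, D1, -⟩
    · exact h.owner_unique D1 B1.Vw B2.Vw hτ2 e2
    · exact h.owner_unique D1.swap B1.Vw B2.Vw hτ2 e2
  linear_combination hw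

end Vale.Agent.P032.Six
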