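import Vale.Agent.P032.H630.Del
import Vale.Agent.P032.S5.H172.Rhombus

/-!
# P032: hub capacity with special ends

Frame `Irr U T`, six colours `x, x', c, d, k, k'`, `z = (x x' | c d)`, `q` with `T q = {c, d, k}` an end
of a `cd`-arc of `S(z)`.

* `Irr.clean_owner` : `v` with `T v = {x, x', k'}` an end of an `x x'`-arc of `S(z)`; then
  `w = v + q - z` has exactly one colour `y` of `c, d`, exact `ky`-arcs of `S(w)` accumulate at `q`, and
  `w` is the only point of the plane with this property.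
* `Irr.cap` (DE6, AL7) : two such points `v1 ≠ v2` and a point `w'` such that exact `kl`-arcs of `S(w')`
  accumulate at `q` (`l` one of `c, d`): `w'` is one of the two rhombus centres.
* `Irr.cap_special` : for `V ∈ S(z)` different from `v1, v2` with `x, x' ∈ T V`: not both `k` and one of
  `c, d` are colours of `V + q - z`.
-/

open Set Filter Topology Metric

noncomputable section

namespace Vale.Agent.P032.Six

variable {U : Fin 6 → Set ℂ} {T : ℂ → Set (Fin 6)}

/-- exact half branches accumulate -/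
theorem Irr.acc_of_half (h : Irr U T) {z v : ℂ} {a b : Fin 6} (hab : a ≠ b) (ha : a ∈ T z)
    (hb' : b ∈ T z) (hv : dist v z = 1) {τ : ℝ}
    (hx : ∀ᶠ t : ℝ in 𝓝[>] 0, T (hb z v τ t) = {a, b}) : Acc T z {a, b} v := by
  intro W hW
  obtain ⟨t, h1, h2⟩ := ((h.arcs_of_exact hab ha hb' hv hx).and
    ((tendsto_hb z v τ).eventually hW)).exists
  exact ⟨_, h2, h1.1, h1.2⟩

/-- the data of a clean complementary pair of ends -/
structure CQ (T : ℂ → Set (Fin 6)) (z v q : ℂ) (x x' c d k k' : Fin 6) : Prop where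
  nd : [x, x', c, d, k, k'].Nodup
  hz : DPt T z x x' c d
  hv : dist v z = 1
  hTv : T v = {k', x, x'}
  Av : Acc T z {x, x'} v
  hq : dist q z = 1
  hTq : T q = {k, c, d}
  Aq : Acc T z {c, d} q
  h4 : (T (v + q - z)).ncard = 4

theorem CQ.anti {z v q : ℂ} {x x' c d k k' : Fin 6} (C : CQ T z v q x x' c d k k')
    (h : Irr U T) : v + q ≠ 2 * z := by
  intro hcon
  have e : q = 2 * z - v := by linear_combination hcon
  have h1 : x ∈ T v := by rw [C.hTv]; simp
  have h2 : x' ∈ T v := by rw [C.hTv]; simp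
  have h3 : c ∈ T q := by rw [C.hTq]; simp
  have h4 : d ∈ T q := by rw [C.hTq]; simp
  rw [e] at h3 h4
  exact h.anti C.hz C.hv (h.sub _ h1) (h.sub _ h2) (h.sub _ h3) (h.sub _ h4)

theorem CQ.ne {z v q : ℂ} {x x' c d k k' : Fin 6} (C : CQ T z v q x x' c d k k') : q ≠ v := by
  rintro rfl
  have h1 : x ∈ T q := by rw [C.hTv]; simp
  rw [C.hTq] at h1
  have nd := C.nd
  simp only [List.nodup_cons, List.mem_cons, List.not_mem_nil, not_or, or_false,
    not_false_eq_true, List.nodup_nil, and_true] at nd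
  simp only [mem_insert_iff, mem_singleton_iff] at h1
  rcases h1 with h2 | h2 | h2
  · exact nd.1.2.2.2.1 h2
  · exact nd.1.2.1 h2
  · exact nd.1.2.2.1 h2

/-- **the owner from a clean rhombus is unique** -/
theorem Irr.clean_owner (h : Irr U T) {z v q : ℂ} {x x' c d k k' : Fin 6}
    (C : CQ T z v q x x' c d k k') : ∃ y, (y = c ∨ y = d) ∧ y ∈ T (v + q - z) ∧
      Acc T (v + q - z) {k, y} q ∧ ∀ w', Acc T w' {k, y} q → w' = v + q - z := by
  have nd : [x, x', c, d, k', k].Nodup := by
    have nd := C.nd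
    simp only [List.nodup_cons, List.mem_cons, List.not_mem_nil, not_or, or_false,
      not_false_eq_true, List.nodup_nil, and_true] at nd ⊢
    obtain ⟨⟨h1, h2, h3, h4, h5⟩, ⟨h6, h7, h8, h9⟩, ⟨h10, h11, h12⟩, ⟨h13, h14⟩, h15⟩ := nd
    exact ⟨⟨h1, h2, h3, h5, h4⟩, ⟨h6, h7, h9, h8⟩, ⟨h10, h12, h11⟩, ⟨h14, h13⟩, Ne.symm h15⟩
  obtain ⟨h1, h2⟩ := h.rhombus nd C.hv C.hq (C.anti h) C.hTv C.hTq C.Av C.Aq C.h4
  have hgeo1 : dist (v + q - z) v = 1 := dist_trans2 C.hq
  have hgeo2 : dist (v + q - z) q = 1 := dist_trans1 C.hv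
  have hne2 : q + v ≠ 2 * (v + q - z) := fun hcon => C.anti h (by linear_combination -hcon)
  have h3v : (T v).ncard ≤ 3 := by
    rw [C.hTv]
    refine (Set.ncard_insert_le _ _).trans ?_
    have := Set.ncard_insert_le x ({x'} : Set (Fin 6))
    rw [Set.ncard_singleton] at this
    omega
  have hq3 : ∀ y, T q ≠ {k, y} := by
    intro y hcon
    have nd' := C.nd
    simp only [List.nodup_cons, List.mem_cons, List.not_mem_nil, not_or, or_false,
      not_false_eq_true, List.nodup_nil, and_true] at nd'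
    have h3 : c ∈ T q := by rw [C.hTq]; simp
    have h4 : d ∈ T q := by rw [C.hTq]; simp
    rw [hcon] at h3 h4
    simp only [mem_insert_iff, mem_singleton_iff] at h3 h4
    rcases h3 with h3 | h3
    · exact nd'.2.2.1.2.1 h3
    · rcases h4 with h4 | h4
      · exact nd'.2.2.2.1.1 h4
      · exact C.hz.cd (h3.trans h4.symm)
  have nd' := C.nd
  simp only [List.nodup_cons, List.mem_cons, List.not_mem_nil, not_or, or_false,
    not_false_eq_true, List.nodup_nil, and_true] at nd'
  -- all colours of `w`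
  have hsub : ∀ y, (y = c ∨ y = d) → T (v + q - z) ∩ T q = {k, y} →
      T (v + q - z) ⊆ {k, y} ∪ T v := by
    intro y hy he i hi
    by_cases hiq : i ∈ T q
    · left
      rw [← he]; exact ⟨hi, hiq⟩
    · right
      -- six colours
      have hcov : i = x ∨ i = x' ∨ i = c ∨ i = d ∨ i = k ∨ i = k' := by
        have c1 : ({x, x', c, d, k, k'} : Set (Fin 6)).ncard = 6 := by
          obtain ⟨⟨h1, h2, h3, h4, h5⟩, ⟨h6, h7, h8, h9⟩, ⟨h10, h11, h12⟩, ⟨h13, h14⟩, h15⟩ := nd'
          rw [Set.ncard_insert_of_notMem (by simp [h1, h2, h3, h4, h5]),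
            Set.ncard_insert_of_notMem (by simp [h6, h7, h8, h9]),
            Set.ncard_insert_of_notMem (by simp [h10, h11, h12]),
            Set.ncard_insert_of_notMem (by simp [h13, h14]), Set.ncard_pair h15]
        have c2 : ({x, x', c, d, k, k'} : Set (Fin 6)) = univ := by
          refine Set.eq_of_subset_of_ncard_le (subset_univ _) ?_ (Set.toFinite _)
          rw [c1, Set.ncard_univ]; simp
        have c3 : i ∈ ({x, x', c, d, k, k'} : Set (Fin 6)) := by rw [c2]; trivial
        simpa using c3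
      rw [C.hTv]
      rw [C.hTq] at hiq
      simp only [mem_insert_iff, mem_singleton_iff] at hiq ⊢
      tauto
  have fin : ∀ y, (y = c ∨ y = d) → T (v + q - z) ∩ T q = {k, y} →
      Acc T (v + q - z) {k, y} q → ∃ y, (y = c ∨ y = d) ∧ y ∈ T (v + q - z) ∧
        Acc T (v + q - z) {k, y} q ∧ ∀ w', Acc T w' {k, y} q → w' = v + q - z := by
    intro y hy he hA
    refine ⟨y, hy, ?_, hA, fun w' hw' => ?_⟩
    · have : y ∈ T (v + q - z) ∩ T q := by rw [he]; simp
      exact this.1
    · by_contra hne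
      exact h.strip h3v C.ne hgeo2 hgeo1 hne2 (hsub y hy he) (hq3 y) hne hw'
  rcases h2 with ⟨h3, -, h5⟩ | ⟨h3, -, h5⟩
  · exact fin c (Or.inl rfl) h3 h5
  · exact fin d (Or.inr rfl) h3 h5

/-- **Capacity of a hub.** -/
theorem Irr.cap (h : Irr U T) {z v1 v2 q w' : ℂ} {x x' c d k k' l : Fin 6}
    (C1 : CQ T z v1 q x x' c d k k') (C2 : CQ T z v2 q x x' c d k k') (hne : v1 ≠ v2)
    (hl : l = c ∨ l = d) (hw' : Acc T w' {k, l} q) :
    w' = v1 + q - z ∨ w' = v2 + q - z := by
  obtain ⟨y1, hy1, -, A1, u1⟩ := h.clean_owner C1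
  obtain ⟨y2, hy2, -, A2, u2⟩ := h.clean_owner C2
  have hyy : y1 ≠ y2 := by
    rintro rfl
    have := u1 _ A2
    exact hne (by linear_combination -this)
  rcases hl with rfl | rfl
  · rcases hy1 with rfl | rfl
    · exact Or.inl (u1 _ hw')
    · rcases hy2 with rfl | rfl
      · exact Or.inr (u2 _ hw')
      · exact absurd rfl hyy
  · rcases hy1 with rfl | rfl
    · rcases hy2 with rfl | rfl
      · exact absurd rfl hyy
      · exact Or.inr (u2 _ hw')
    · exact Or.inl (u1 _ hw')

/-- **DE6 / AL7**: with two clean `{x, x', k'}`-ends on `S(z)`, no other point `V` of `S(z)` with the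
colours `x, x'` gives a centre at `q` -/
theorem Irr.cap_special (h : Irr U T) {z v1 v2 q V : ℂ} {x x' c d k k' l : Fin 6}
    (C1 : CQ T z v1 q x x' c d k k') (C2 : CQ T z v2 q x x' c d k k') (hne : v1 ≠ v2)
    (hV : dist V z = 1) (hx : x ∈ T V) (hx' : x' ∈ T V) (hV1 : V ≠ v1) (hV2 : V ≠ v2)
    (hqV : q ≠ V) (hl : l = c ∨ l = d) (hkw : k ∈ T (V + q - z)) (hlw : l ∈ T (V + q - z)) :
    False := by
  have nd := C1.nd
  simp only [List.nodup_cons, List.mem_cons, List.not_mem_nil, not_or, or_false,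
    not_false_eq_true, List.nodup_nil, and_true] at nd
  have hanti : V + q ≠ 2 * z := by
    intro hcon
    have e : q = 2 * z - V := by linear_combination hcon
    have h3 : c ∈ T q := by rw [C1.hTq]; simp
    have h4 : d ∈ T q := by rw [C1.hTq]; simp
    rw [e] at h3 h4
    exact h.anti C1.hz hV (h.sub _ hx) (h.sub _ hx') (h.sub _ h3) (h.sub _ h4)
  have hTq : T q = {c, d, k} := by
    rw [C1.hTq]; ext i; simp only [mem_insert_iff, mem_singleton_iff]; tauto
  obtain ⟨τ, -, h1⟩ := h.half_kl C1.hz hV hx hx' C1.hq hTq hl hqV hanti hkw hlw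
  have hkl : k ≠ l := by
    rcases hl with rfl | rfl
    · exact Ne.symm nd.2.2.1.2.1
    · exact Ne.symm nd.2.2.2.1.1
  have hA := h.acc_of_half hkl hkw hlw (by rw [dist_comm]; exact dist_trans1 hV) h1
  rcases h.cap C1 C2 hne hl hA with h2 | h2
  · exact hV1 (by linear_combination h2)
  · exact hV2 (by linear_combination h2)

end Vale.Agent.P032.Six
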