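import Vale.Agent.P032.H630.Trans

/-!
# P032: owners of the boundary rays at a two-pair centre, bad ends at an alpha point

Frame `Irr U T`, six colours.

* `Sd.sign_in`, `Sd.sign_out` : a colour which is inside (outside) `S(z)` near `V` and is carried by
  the half branch `τ` of `S(w)` at `V`: the half branch is inside (outside) `S(z)`.
* `Sd.one_owner` : `i`, `j` on the two sides of `S(z)` at `V`: no half branch of another unit circle
  through `V` carries both colours.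
-/

open Set Filter Topology Metric

noncomputable section

namespace Vale.Agent.P032.Six

variable {U : Fin 6 → Set ℂ} {T : ℂ → Set (Fin 6)}

theorem Sd.sign_in {z w V : ℂ} {i j : Fin 6} (hs : Sd U z V i j) (hw : dist V w = 1)
    (hz : dist z V = 1) (h1 : z ≠ w) (h2 : z + w ≠ 2 * V) {τ : ℝ} (hτ : τ = 1 ∨ τ = -1)
    (hi : ∀ᶠ t : ℝ in 𝓝[>] 0, i ∈ Pal U (hb w V τ t)) : τ * sg w V z < 0 := by
  have hne := sg_ne hw hz h1 h2
  by_contra hcon
  have hpos : 0 < τ * sg w V z := lt_of_le_of_ne (not_lt.1 hcon)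
    (Ne.symm (mul_ne_zero (by rcases hτ with rfl | rfl <;> norm_num) hne))
  obtain ⟨t, h3, h4, h5⟩ :=
    (hi.and ((hb_out hz hpos).and ((tendsto_hb w V τ).eventually hs))).exists
  exact (h5.1 h4) h3

theorem Sd.sign_out {z w V : ℂ} {i j : Fin 6} (hs : Sd U z V i j) (hw : dist V w = 1)
    (hz : dist z V = 1) (h1 : z ≠ w) (h2 : z + w ≠ 2 * V) {τ : ℝ} (hτ : τ = 1 ∨ τ = -1)
    (hj : ∀ᶠ t : ℝ in 𝓝[>] 0, j ∈ Pal U (hb w V τ t)) : 0 < τ * sg w V z := by
  have hne := sg_ne hw hz h1 h2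
  by_contra hcon
  have hneg : τ * sg w V z < 0 := lt_of_le_of_ne (not_lt.1 hcon)
    (mul_ne_zero (by rcases hτ with rfl | rfl <;> norm_num) hne)
  obtain ⟨t, h3, h4, h5⟩ :=
    (hj.and ((hb_in hz hneg).and ((tendsto_hb w V τ).eventually hs))).exists
  exact (h5.2 h4) h3

/-- the tangent circle on the other side -/
theorem owner_hb_tangent {z w V : ℂ} (hw : dist V w = 1) (h2 : z + w = 2 * V) {τ : ℝ}
    (hτ : τ = 1 ∨ τ = -1) : ∀ᶠ t : ℝ in 𝓝[>] 0, 1 < dist (hb w V τ t) z := by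
  filter_upwards [ev_small (δ := 1) one_pos] with t ht
  have hz : z = w + 2 * (V - w) := by linear_combination h2
  have e1 : hb w V τ t - z = (V - w) * (cis (τ * t) - 2) := by
    rw [hb, hz]; ring
  have hn : ‖V - w‖ = 1 := by rw [← dist_eq_norm]; exact hw
  rw [dist_eq_norm, e1, norm_mul, hn, one_mul]
  have hc : Real.cos (τ * t) < 1 := by
    have h3 : Real.cos t < 1 := by
      have h4 := Real.cos_lt_cos_of_nonneg_of_le_pi (x := 0) (y := t) le_rfl
        (by linarith [Real.pi_gt_three, ht.2]) ht.1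
      rwa [Real.cos_zero] at h4
    rcases hτ with rfl | rfl
    · rwa [one_mul]
    · rw [show (-1 : ℝ) * t = -t by ring, Real.cos_neg]; exact h3
  have h5 : 1 < ‖cis (τ * t) - 2‖ ^ 2 := by
    rw [Complex.sq_norm, Complex.normSq_apply]
    simp only [Complex.sub_re, Complex.sub_im, cis_re, cis_im]
    have h6 := Real.sin_sq_add_cos_sq (τ * t)
    norm_num
    nlinarith
  nlinarith [norm_nonneg (cis (τ * t) - 2)]

/-- **One owner.** -/
theorem Sd.one_owner {z w V : ℂ} {i j : Fin 6} (hs : Sd U z V i j) (hw : dist V w = 1)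
    (hz : dist z V = 1) (h1 : z ≠ w) {τ : ℝ} (hτ : τ = 1 ∨ τ = -1)
    (hi : ∀ᶠ t : ℝ in 𝓝[>] 0, i ∈ Pal U (hb w V τ t))
    (hj : ∀ᶠ t : ℝ in 𝓝[>] 0, j ∈ Pal U (hb w V τ t)) : False := by
  by_cases h2 : z + w = 2 * V
  · obtain ⟨t, h3, h4, h5⟩ :=
      (hi.and ((owner_hb_tangent hw h2 hτ).and ((tendsto_hb w V τ).eventually hs))).exists
    exact (h5.1 h4) h3
  · have h3 := hs.sign_in hw hz h1 h2 hτ hi
    have h4 := hs.sign_out hw hz h1 h2 hτ hj
    linarith

/-- **One owner**, two-pair centres: `z` and `w` two-pair centres with the pair `i, j`, exact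
`ij`-half branches at the common point `V` of their circles: `z = w`. -/
theorem Irr.owner_unique (h : Irr U T) {z w V : ℂ} {i j c d : Fin 6} (hz : DPt T z i j c d)
    (hzV : dist V z = 1) (hwV : dist V w = 1) {τ : ℝ} (hτ : τ = 1 ∨ τ = -1)
    (hex : ∀ᶠ t : ℝ in 𝓝[>] 0, T (hb w V τ t) = {i, j}) : z = w := by
  by_contra hne
  have hi : ∀ᶠ t : ℝ in 𝓝[>] 0, i ∈ Pal U (hb w V τ t) := by
    filter_upwards [hex] with t ht
    exact h.sub _ (by rw [ht]; simp)
  have hj : ∀ᶠ t : ℝ in 𝓝[>] 0, j ∈ Pal U (hb w V τ t) := by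
    filter_upwards [hex] with t ht
    exact h.sub _ (by rw [ht]; simp)
  have hVz : dist z V = 1 := by rw [dist_comm]; exact hzV
  rcases h.sides hz hzV with hs | hs
  · exact hs.one_owner hwV hVz hne hτ hi hj
  · exact hs.one_owner hwV hVz hne hτ hj hi

/-- orientation and half branches: `x` is carried by the half branch `τ` of `S(w)` at `V` and has
the side `σ` of `S(z)` at `V` (`1` inside) -/
theorem Ori.sign {z w V : ℂ} {x x' : Fin 6} {σ : ℝ} (ho : Ori U z V x x' σ) (hw : dist V w = 1)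
    (hz : dist z V = 1) (h1 : z ≠ w) (h2 : z + w ≠ 2 * V) {τ : ℝ} (hτ : τ = 1 ∨ τ = -1)
    (hi : ∀ᶠ t : ℝ in 𝓝[>] 0, x ∈ Pal U (hb w V τ t)) : σ * τ * sg w V z < 0 := by
  rcases ho with ⟨rfl, hs⟩ | ⟨rfl, hs⟩
  · have := hs.sign_in hw hz h1 h2 hτ hi
    linarith
  · have := hs.sign_out hw hz h1 h2 hτ hi
    linarith

theorem Ori.sd_center (h : Irr U T) {z g : ℂ} {a b : Fin 6} {σ : ℝ} (hg : Arc T z g {a, b})
    (ho : Ori U z g a b σ) : Ori U g z a b σ := by
  rcases ho with ⟨rfl, hs⟩ | ⟨rfl, hs⟩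
  · exact Or.inl ⟨rfl, h.sd_center hg hs⟩
  · exact Or.inr ⟨rfl, h.sd_center (by rwa [pair_comm] : Arc T z g {b, a}) hs⟩

theorem sg_swap (z v g : ℂ) : sg g v z = -sg z v g := by
  unfold sg cr; simp only [Complex.sub_re, Complex.sub_im]; ring

/-- the sign of the direction of the exact `xk`-half branch of `S(V)` at `w` -/
theorem Irr.sign_second (h : Irr U T) {z V w : ℂ} {x k : Fin 6} {s ρ σ' : ℝ} (hzV : dist V z = 1)
    (hwV : dist w V = 1) (h1 : w ≠ z) (h2 : w + z ≠ 2 * V) (hρ : ρ = 1 ∨ ρ = -1)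
    (hx : ∀ᶠ t : ℝ in 𝓝[>] 0, x ∈ Pal U (hb z V ρ t))
    (hs : ∃ᶠ t : ℝ in 𝓝[>] 0, Arc T V (hb V w s t) {x, k}) (ho : Ori U V w x k σ') :
    σ' * ρ * sg z V w < 0 := by
  have hVz : dist z V = 1 := by rw [dist_comm]; exact hzV
  have hne : sg z V w ≠ 0 := sg_ne hzV hwV h1 h2
  have hne2 : σ' * ρ * sg z V w ≠ 0 := by
    refine mul_ne_zero (mul_ne_zero ?_ ?_) hne
    · rcases ho with ⟨rfl, -⟩ | ⟨rfl, -⟩ <;> norm_num
    · rcases hρ with rfl | rfl <;> norm_num
  by_contra hcon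
  have hpos : 0 < σ' * ρ * sg z V w := lt_of_le_of_ne (not_lt.1 hcon) (Ne.symm hne2)
  have hcont : Continuous fun w' => σ' * ρ * sg z V w' := by
    have : Continuous fun w' => sg z V w' := by
      unfold sg cr
      fun_prop
    exact continuous_const.mul this
  have hev : ∀ᶠ w' in 𝓝 w, 0 < σ' * ρ * sg z V w' ∧ w' ≠ z ∧ w' + z ≠ 2 * V ∧
      Ori U V w' x k σ' := by
    filter_upwards [hcont.continuousAt.eventually (lt_mem_nhds hpos), isOpen_ne.mem_nhds h1,
      (isOpen_ne_fun (continuous_id.add continuous_const) continuous_const).mem_nhds h2,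
      ho.nhd] with w' m1 m2 m3 m4 using ⟨m1, m2, m3, m4⟩
  obtain ⟨t, hA, m1, m2, m3, m4⟩ := (hs.and_eventually ((tendsto_hb V w s).eventually hev)).exists
  have hw'V : dist V (hb V w s t) = 1 := by rw [dist_comm]; exact hA.1
  have h3 := (Ori.sd_center h hA m4).sign (w := z) (V := V) hzV hA.1 m2 m3 hρ hx
  linarith

end Vale.Agent.P032.Six
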