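import Vale.Agent.P032.H630.BadEnd

/-!
# P032: the sign rule at an alpha point

Frame `Irr U T`, `Mn U T`, six colours.  `Alp U T z V x x' c d k k' ρ σ`: `z = (x x' | c d)`,
`V ∈ S(z)`, `V = (x k | x' k')`, the exact `x x'`-arc of `S(z)` at `V` is on the half branch `ρ`, and
`σ = 1` if `x` is inside `S(z)` at `V`, `-1` if it is outside.

* `Alp.rule` : every `cd`-arc of `S(z)` whose two ends have the palettes `{c, d, k}` and `{c, d, k'}`
  runs from the `k`-end to the `k'`-end in the direction `ρ σ` (`1` : counterclockwise).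
-/

open Set Filter Topology Metric

noncomputable section

namespace Vale.Agent.P032.Six

variable {U : Fin 6 → Set ℂ} {T : ℂ → Set (Fin 6)}

/-- the alpha situation -/
structure Alp (U : Fin 6 → Set ℂ) (T : ℂ → Set (Fin 6)) (z V : ℂ) (x x' c d k k' : Fin 6)
    (ρ σ : ℝ) : Prop where
  hz : DPt T z x x' c d
  hV : dist V z = 1
  hDV : DPt T V x k x' k'
  kc : k ≠ c
  kd : k ≠ d
  kc' : k' ≠ c
  kd' : k' ≠ d
  hρ : ρ = 1 ∨ ρ = -1
  ex : ∀ᶠ t : ℝ in 𝓝[>] 0, T (hb z V ρ t) = {x, x'}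
  ori : Ori U z V x x' σ

namespace Alp

variable {z V : ℂ} {x x' c d k k' : Fin 6} {ρ σ : ℝ}

theorem swap (A : Alp U T z V x x' c d k k' ρ σ) : Alp U T z V x' x c d k' k ρ (-σ) where
  hz := A.hz.swap12
  hV := A.hV
  hDV := A.hDV.swap
  kc := A.kc'
  kd := A.kd'
  kc' := A.kc
  kd' := A.kd
  hρ := A.hρ
  ex := by rw [pair_comm]; exact A.ex
  ori := by
    rcases A.ori with ⟨rfl, hs⟩ | ⟨rfl, hs⟩
    · exact Or.inr ⟨rfl, hs⟩
    · exact Or.inl ⟨by norm_num, hs⟩

theorem Vz (A : Alp U T z V x x' c d k k' ρ σ) : dist z V = 1 := by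
  rw [dist_comm]; exact A.hV

theorem xV (A : Alp U T z V x x' c d k k' ρ σ) : x ∈ T V := by rw [A.hDV.pal]; simp
theorem xV' (A : Alp U T z V x x' c d k k' ρ σ) : x' ∈ T V := by rw [A.hDV.pal]; simp
theorem kV (A : Alp U T z V x x' c d k k' ρ σ) : k ∈ T V := by rw [A.hDV.pal]; simp
theorem kV' (A : Alp U T z V x x' c d k k' ρ σ) : k' ∈ T V := by rw [A.hDV.pal]; simp

theorem cz (A : Alp U T z V x x' c d k k' ρ σ) : c ∈ T z := by rw [A.hz.pal]; simp
theorem dz (A : Alp U T z V x x' c d k k' ρ σ) : d ∈ T z := by rw [A.hz.pal]; simp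

theorem cov (A : Alp U T z V x x' c d k k' ρ σ) (i : Fin 6) :
    i = x ∨ i = x' ∨ i = c ∨ i = d ∨ i = k ∨ i = k' := by
  obtain ⟨hz, -, hDV, kc, kd, kc', kd', -, -, -⟩ := A
  have h1 : ({x, x', c, d, k, k'} : Set (Fin 6)).ncard = 6 := by
    rw [Set.ncard_insert_of_notMem (by simp [hz.ab, hz.ac, hz.ad, hDV.ab, hDV.ad]),
      Set.ncard_insert_of_notMem (by simp [hz.bc, hz.bd, hDV.bc.symm, hDV.cd]),
      Set.ncard_insert_of_notMem (by simp [hz.cd, kc.symm, kc'.symm]),
      Set.ncard_insert_of_notMem (by simp [kd.symm, kd'.symm]), Set.ncard_pair hDV.bd]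
  have h2 : ({x, x', c, d, k, k'} : Set (Fin 6)) = univ := by
    refine Set.eq_of_subset_of_ncard_le (subset_univ _) ?_ (Set.toFinite _)
    rw [h1, Set.ncard_univ]; simp
  have h3 : i ∈ ({x, x', c, d, k, k'} : Set (Fin 6)) := by rw [h2]; trivial
  simpa using h3

/-- points with the colours `c, d` are not antipodal to `V` -/
theorem not_anti (A : Alp U T z V x x' c d k k' ρ σ) (h : Irr U T) {p : ℂ} (hc : c ∈ T p)
    (hd : d ∈ T p) : p + V ≠ 2 * z := by
  intro hcon
  have e : p = 2 * z - V := by linear_combination hcon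
  subst e
  exact h.anti A.hz A.hV (h.sub _ A.xV) (h.sub _ A.xV') (h.sub _ hc) (h.sub _ hd)

/-- a `cd`-point is not `V` -/
theorem not_V (A : Alp U T z V x x' c d k k' ρ σ) {p : ℂ} (hc : c ∈ T p) : p ≠ V := by
  rintro rfl
  rw [A.hDV.pal] at hc
  simp only [mem_insert_iff, mem_singleton_iff] at hc
  rcases hc with h1 | h1 | h1 | h1
  · exact A.hz.ac h1.symm
  · exact A.kc h1.symm
  · exact A.hz.bc h1.symm
  · exact A.kc' h1.symm

/-- the letter of `S(V)` at the translate of an exact `cd`-point -/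
theorem letter (A : Alp U T z V x x' c d k k' ρ σ) (h : Irr U T) {p : ℂ} (hp : dist p z = 1)
    (hT : T p = {c, d}) : Arc T V (V + p - z) {x, k} ∨ Arc T V (V + p - z) {x', k'} ∨
      T (V + p - z) = T V := by
  have hA := h.arc_of_eq A.hz.cd A.cz A.dz hp hT
  have hc : c ∈ T p := by rw [hT]; simp
  have hd : d ∈ T p := by rw [hT]; simp
  have hPV : ∀ i, i ∈ ({c, d} : Set (Fin 6)) ∨ i ∈ T V := by
    intro i
    rw [A.hDV.pal]
    simp only [mem_insert_iff, mem_singleton_iff]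
    have := A.cov i
    tauto
  rcases h.transfer A.hV A.hDV hA hPV (A.not_V hc) (A.not_anti h hc hd) with
    h1 | h1 | ⟨h1, -⟩
  · exact Or.inl h1
  · exact Or.inr (Or.inl h1)
  · exact Or.inr (Or.inr h1)

/-- **a beta partner of `V`** -/
theorem beta_at (A : Alp U T z V x x' c d k k' ρ σ) (h : Irr U T) {w : ℂ} (hw : dist w V = 1)
    (hwz : w ≠ z) (hw2 : w + z ≠ 2 * V) (hT : T w = T V) :
    DPt T w x k' k x' ∧ (∀ᶠ t : ℝ in 𝓝[>] 0, T (hb V w (ρ * σ) t) = {x, k}) ∧
      ∀ᶠ t : ℝ in 𝓝[>] 0, T (hb V w (-(ρ * σ)) t) = {x', k'} := by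
  have hDV := A.hDV
  have hVw : dist V w = 1 := by rw [dist_comm]; exact hw
  have hD : DPt T w x k' k x' := by
    rcases h.beta4_dpt hDV hw hT with h1 | h1
    · exfalso
      obtain ⟨τ, hτ, h2, -⟩ := h.germ_beta4 h1 hVw hT.symm
      exact hwz (h.owner_unique A.hz A.hV hVw hτ h2).symm
    · exact h1
  obtain ⟨τ, hτ, h1, -⟩ := h.germ_beta4 hD hVw hT.symm
  have hJ := BadQ.pal_of_exact h h1
  have hsub : T w ⊆ {k, x, k', x'} := by
    rw [hT, hDV.pal]; intro i hi; simp only [mem_insert_iff, mem_singleton_iff] at hi ⊢; tauto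
  obtain ⟨s, hs, h3, h4⟩ := h.germ_beta4 hDV hw hT
  have hsρ : s = ρ * σ := by
    refine h.bad_sign A.hV hw hwz hw2 A.hρ hτ hs A.ori
      ((BadQ.pal_of_exact h A.ex).mono fun t ht => ht.1) (hJ.mono fun t ht => ht.1) ?_
      (h.arcs_of_exact hDV.ab A.xV A.kV hw h3).frequently
    rcases h.sides hDV hw with hS | hS
    · exact Or.inr ⟨hS, (h.nappe_in hw hsub (h.sub _ A.xV) (h.sub _ A.kV') hτ hJ hS).mono
        fun t ht => ht.2⟩
    · exact Or.inl ⟨hS, (h.nappe_out hw hsub (h.sub _ A.xV) (h.sub _ A.kV') hτ hJ hS).mono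
        fun t ht => ht.2⟩
  rw [← hsρ]
  exact ⟨hD, h3, h4⟩

/-- **the sign of a bad end** -/
theorem end_sign (A : Alp U T z V x x' c d k k' ρ σ) (h : Irr U T) (hmin : Mn U T) {q : ℂ}
    {s : ℝ} (hs : s = 1 ∨ s = -1) (hq : dist q z = 1) (hTq : T q = {c, d, k})
    (h4 : (T (V + q - z)).ncard ≤ 4)
    (hex : ∀ᶠ t : ℝ in 𝓝[>] 0, T (hb V (V + q - z) s t) = {x, k}) : s = ρ * σ := by
  have hwV : dist (V + q - z) V = 1 := dist_trans2 hq
  have B : BadQ T z V q x x' c d k k' :=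
    ⟨A.hz, A.hV, A.hDV, A.kc, A.kd, A.kc', A.kd', hq, hTq, h4, h.mem_hb_eq (by simp) hex,
      h.mem_hb_eq (by simp) hex⟩
  obtain ⟨τ, -, -, h1, -⟩ := h.bad_end hmin B A.hρ A.ex A.ori
  exact h1 s hs (h.arcs_of_exact A.hDV.ab A.xV A.kV hwV hex).frequently

/-- the letter at an end of a `cd`-arc -/
theorem half_letter (A : Alp U T z V x x' c d k k' ρ σ) (h : Irr U T) {q : ℂ} {s : ℝ}
    (hs : s = 1 ∨ s = -1) (hq : dist q z = 1)
    (hex : ∀ᶠ t : ℝ in 𝓝[>] 0, T (hb z q s t) = {c, d}) :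
    (∀ᶠ t : ℝ in 𝓝[>] 0, T (hb V (V + q - z) s t) = {x, k}) ∨
      ∀ᶠ t : ℝ in 𝓝[>] 0, T (hb V (V + q - z) s t) = {x', k'} := by
  have hwV : dist (V + q - z) V = 1 := dist_trans2 hq
  have hsub : ∀ᶠ t : ℝ in 𝓝[>] 0, T (hb V (V + q - z) s t) ⊆ T V := by
    filter_upwards [hex] with t ht
    have e : hb V (V + q - z) s t = V + hb z q s t - z := by unfold hb; ring
    have hxk : ({x, k} : Set (Fin 6)) ⊆ T V := by
      rintro i (rfl | hi)
      · exact A.xV
      · rw [mem_singleton_iff] at hi; subst hi; exact A.kV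
    have hxk' : ({x', k'} : Set (Fin 6)) ⊆ T V := by
      rintro i (rfl | hi)
      · exact A.xV'
      · rw [mem_singleton_iff] at hi; subst hi; exact A.kV'
    rw [e]
    rcases A.letter h (dist_hb hq s t) ht with h1 | h1 | h1
    · rw [h1.mem]; exact hxk
    · rw [h1.mem]; exact hxk'
    · exact h1.subset
  rcases h.half_zone A.hDV hwV hs with h1 | h1
  · exact Or.inr (h.half_exact A.hDV.swap hwV hs hsub h1)
  · exact Or.inl (h.half_exact A.hDV hwV hs hsub h1)

/-- the translate of a `cd`-arc of `S(z)` on `S(V)` -/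
theorem g_eq (z V q : ℂ) (s r : ℝ) : V + an z q (s * r) - z = hb V (V + q - z) s r := by
  unfold an hb; ring

/-- **Sign rule**, first form. -/
theorem rule_aux (A : Alp U T z V x x' c d k k' ρ σ) (h : Irr U T) (hmin : Mn U T)
    {q : ℂ} {s l : ℝ} (hs : s = 1 ∨ s = -1) (hl : 0 < l) (hq : dist q z = 1)
    (ex : ∀ r ∈ Ioo 0 l, T (an z q (s * r)) = {c, d}) (h1 : T q = {c, d, k})
    (h2 : T (an z q (s * l)) = {c, d, k'}) (h4 : (T (V + q - z)).ncard ≤ 4)
    (h4' : (T (V + an z q (s * l) - z)).ncard ≤ 4) : s = ρ * σ := by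
  by_contra hne
  have hσ1 : σ = 1 ∨ σ = -1 := by
    rcases A.ori with ⟨rfl, -⟩ | ⟨rfl, -⟩
    · exact Or.inl rfl
    · exact Or.inr rfl
  have hs' : s = -(ρ * σ) := by
    rcases hs with rfl | rfl <;> rcases A.hρ with rfl | rfl <;> rcases hσ1 with rfl | rfl <;>
      first
        | (exfalso; apply hne; norm_num; done)
        | norm_num
  have hms : -s = 1 ∨ -s = -1 := by rcases hs with rfl | rfl <;> simp
  have hss : s * s = 1 := by rcases hs with rfl | rfl <;> norm_num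
  set q2 := an z q (s * l) with hq2
  have hq2z : dist q2 z = 1 := dist_an hq _
  -- the exact half branches of `S(z)` at the ends
  have e1 : ∀ᶠ t : ℝ in 𝓝[>] 0, T (hb z q s t) = {c, d} := by
    filter_upwards [Ioo_mem_nhdsGT hl] with t ht
    rw [hb_eq_an]; exact ex t ht
  have e2 : ∀ᶠ t : ℝ in 𝓝[>] 0, T (hb z q2 (-s) t) = {c, d} := by
    filter_upwards [Ioo_mem_nhdsGT hl] with t ht
    rw [hb_eq_an, hq2, an_an, show s * l + -s * t = s * (l - t) by ring]
    exact ex _ ⟨by linarith [ht.2], by linarith [ht.1]⟩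
  -- the letters at the ends
  have l1 : ∀ᶠ t : ℝ in 𝓝[>] 0, T (hb V (V + q - z) s t) = {x', k'} := by
    rcases A.half_letter h hs hq e1 with h5 | h5
    · exact absurd (A.end_sign h hmin hs hq h1 h4 h5) hne
    · exact h5
  have l2 : ∀ᶠ t : ℝ in 𝓝[>] 0, T (hb V (V + q2 - z) (-s) t) = {x, k} := by
    rcases A.half_letter h hms hq2z e2 with h5 | h5
    · exact h5
    · exfalso
      have := A.swap.end_sign h hmin hms hq2z (by rw [h2]) h4' h5
      apply hne
      linarith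
  obtain ⟨δ1, hδ1, s1⟩ := mem_nhdsGT_iff_exists_Ioo_subset.1 l1
  obtain ⟨δ2, hδ2, s2⟩ := mem_nhdsGT_iff_exists_Ioo_subset.1 l2
  rw [mem_Ioi] at hδ1 hδ2
  obtain ⟨a, ha0, ha1, ha2⟩ : ∃ a, 0 < a ∧ a < δ1 ∧ a < l / 2 := by
    refine ⟨min (δ1 / 2) (l / 4), lt_min (by linarith) (by linarith), ?_, ?_⟩
    · exact lt_of_le_of_lt (min_le_left _ _) (by linarith)
    · exact lt_of_le_of_lt (min_le_right _ _) (by linarith)
  obtain ⟨b', hb0, hb1, hb2⟩ : ∃ b, 0 < b ∧ b < δ2 ∧ b < l / 2 := by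
    refine ⟨min (δ2 / 2) (l / 4), lt_min (by linarith) (by linarith), ?_, ?_⟩
    · exact lt_of_le_of_lt (min_le_left _ _) (by linarith)
    · exact lt_of_le_of_lt (min_le_right _ _) (by linarith)
  -- the translated arc
  have ga : T (hb V (V + q - z) s a) = {x', k'} := s1 ⟨ha0, ha1⟩
  have gb : T (hb V (V + q - z) s (l - b')) = {x, k} := by
    have h6 : T (hb V (V + q2 - z) (-s) b') = {x, k} := s2 ⟨hb0, hb1⟩
    rw [← h6]; congr 1
    rw [← g_eq z V q s (l - b'), ← g_eq z V q2 (-s) b', hq2, an_an,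
      show s * l + -s * b' = s * (l - b') by ring]
  have hcont : Continuous fun r : ℝ => hb V (V + q - z) s r := by
    unfold hb
    exact continuous_const.add (continuous_const.mul
      (continuous_cis.comp (continuous_const.mul continuous_id)))
  have hwV : dist (V + q - z) V = 1 := dist_trans2 hq
  have hclosed : IsClosed ({r : ℝ | x' ∈ T (hb V (V + q - z) s r)} ∩ Icc a (l - b')) :=
    ((h.closed x').preimage hcont).inter isClosed_Icc
  have hIcc : Icc a (l - b') ⊆ {r : ℝ | x' ∈ T (hb V (V + q - z) s r)} := by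
    refine hclosed.Icc_subset_of_forall_mem_nhdsWithin ?_ ?_
    · show x' ∈ T (hb V (V + q - z) s a)
      rw [ga]; simp
    · rintro r ⟨hr, hr1, hr2⟩
      have hr : x' ∈ T (hb V (V + q - z) s r) := hr
      have hr0 : r ∈ Ioo 0 l := ⟨by linarith, by linarith⟩
      have hlet := A.letter h (dist_an hq (s * r)) (ex r hr0)
      rw [g_eq] at hlet
      rcases hlet with h5 | h5 | h5
      · exfalso
        rw [h5.mem] at hr
        rcases hr with h6 | h6
        · exact A.hz.ab h6.symm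
        · exact A.hDV.bc.symm h6
      · have h6 := (hcont.tendsto r)
        have h7 : Tendsto (fun r : ℝ => hb V (V + q - z) s r) (𝓝 r)
            (𝓝[sphere V 1] (hb V (V + q - z) s r)) :=
          tendsto_nhdsWithin_iff.2 ⟨h6, Eventually.of_forall fun t => dist_hb hwV s t⟩
        have h8 := h7.eventually h5.2
        refine mem_nhdsWithin_of_mem_nhds ?_
        filter_upwards [h8] with r' hr'
        show x' ∈ T (hb V (V + q - z) s r')
        rw [hr']; simp
      · -- a beta partner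
        set w := hb V (V + q - z) s r with hw
        have hwV' : dist w V = 1 := dist_hb hwV s r
        have hpT := ex r hr0
        have hcp : c ∈ T (an z q (s * r)) := by rw [hpT]; simp
        have hdp : d ∈ T (an z q (s * r)) := by rw [hpT]; simp
        have hwp : w = V + an z q (s * r) - z := (g_eq z V q s r).symm
        have hwz : w ≠ z := fun hcon => A.not_anti h hcp hdp (by
          rw [hwp] at hcon; linear_combination hcon)
        have hw2 : w + z ≠ 2 * V := fun hcon => A.not_V hcp (by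
          rw [hwp] at hcon; linear_combination hcon)
        obtain ⟨-, -, h6⟩ := A.beta_at h hwV' hwz hw2 h5
        rw [← hs'] at h6
        have h7 : Tendsto (fun r' : ℝ => r' - r) (𝓝[>] r) (𝓝[>] 0) := by
          refine tendsto_nhdsWithin_iff.2 ⟨?_, ?_⟩
          · have : Tendsto (fun r' : ℝ => r' - r) (𝓝 r) (𝓝 (r - r)) :=
              (continuous_id.sub continuous_const).tendsto r
            rw [sub_self] at this
            exact this.mono_left nhdsWithin_le_nhds
          · filter_upwards [self_mem_nhdsWithin] with r' hr'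
            rw [mem_Ioi] at hr' ⊢
            linarith
        filter_upwards [h7.eventually h6] with r' hr'
        show x' ∈ T (hb V (V + q - z) s r')
        have e : hb V (V + q - z) s r' = hb V w s (r' - r) := by
          rw [hw]
          simp only [hb_eq_an]
          rw [an_an]
          congr 1; ring
        rw [e, hr']; simp
  have hfin : x' ∈ T (hb V (V + q - z) s (l - b')) := hIcc ⟨by linarith, le_rfl⟩
  rw [gb] at hfin
  rcases hfin with h6 | h6
  · exact A.hz.ab h6.symm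
  · exact A.hDV.bc.symm h6

/-- **Sign rule.** -/
theorem rule (A : Alp U T z V x x' c d k k' ρ σ) (h : Irr U T) (hmin : Mn U T)
    {q : ℂ} {s l : ℝ} {m1 m2 : Fin 6} (hs : s = 1 ∨ s = -1) (hl : 0 < l) (hq : dist q z = 1)
    (ex : ∀ r ∈ Ioo 0 l, T (an z q (s * r)) = {c, d}) (h1 : T q = {c, d, m1})
    (h2 : T (an z q (s * l)) = {c, d, m2}) (h4 : (T (V + q - z)).ncard ≤ 4)
    (h4' : (T (V + an z q (s * l) - z)).ncard ≤ 4) (hm1 : m1 = k ∨ m1 = k')
    (hm2 : m2 = k ∨ m2 = k') (hne : m1 ≠ m2) :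
    (m1 = k ∧ m2 = k' ∧ s = ρ * σ) ∨ (m1 = k' ∧ m2 = k ∧ s = -(ρ * σ)) := by
  rcases hm1 with rfl | rfl
  · rcases hm2 with rfl | rfl
    · exact absurd rfl hne
    · exact Or.inl ⟨rfl, rfl, A.rule_aux h hmin hs hl hq ex h1 h2 h4 h4'⟩
  · rcases hm2 with rfl | rfl
    · refine Or.inr ⟨rfl, rfl, ?_⟩
      have := A.swap.rule_aux h hmin hs hl hq ex h1 h2 h4 h4'
      linarith
    · exact absurd rfl hne

end Alp

end Vale.Agent.P032.Six
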