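import Vale.Agent.P032.S5.H225.Germ
import Vale.Agent.P032.S5.H394.Ends
import Vale.Agent.P032.S5.H824.Two

/-!
# P032: zones at a two-pair centre, for arbitrary points of the circle

Frame `Irr U T`, `z` with `DPt T z a b c d`.

* `Irr.zone` : `g1, g2` interior points of exact `ab`-arcs of `S(z)` with orientations `σ1, σ2`
  (`1`: `a` inside, `-1`: `b` inside).  If `V ∈ S(z)` separates the normals `σ1 (g1 - z)` and
  `σ2 (g2 - z)` then `c, d ∉ Pal U V`.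
* `Irr.zone_sign` : the sign of `cr (ρ (h - z)) (σ (g - z))` is the same for all exact `ab`-points `g`
  and all exact `cd`-points `h`.
* `Irr.both_sides` : exact `ab`-arcs accumulating at `V` from both sides exclude `c, d ∈ Pal U V`.
* `Irr.half_zone` : exact `ab`- and exact `cd`-arcs do not both accumulate at `V` from the same side.
-/

open Set Filter Topology Metric

noncomputable section

namespace Vale.Agent.P032.Six

variable {k : ℕ} {U : Fin k → Set ℂ} {T : ℂ → Set (Fin k)}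

/-- orientation of the pair `a, b` at a point `g` of `S(z)`: `1` if `a` is inside, `-1` if `b` is -/
def Ori (U : Fin k → Set ℂ) (z g : ℂ) (a b : Fin k) (σ : ℝ) : Prop :=
  (σ = 1 ∧ Sd U z g a b) ∨ (σ = -1 ∧ Sd U z g b a)

theorem Ori.sq {z g : ℂ} {a b : Fin k} {σ : ℝ} (h : Ori U z g a b σ) : σ * σ = 1 := by
  rcases h with ⟨rfl, -⟩ | ⟨rfl, -⟩ <;> norm_num

theorem Ori.nhd {z g : ℂ} {a b : Fin k} {σ : ℝ} (h : Ori U z g a b σ) :
    ∀ᶠ g' in 𝓝 g, Ori U z g' a b σ := by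
  rcases h with ⟨rfl, hs⟩ | ⟨rfl, hs⟩
  · filter_upwards [eventually_eventually_nhds.2 hs] with g' hg' using Or.inl ⟨rfl, hg'⟩
  · filter_upwards [eventually_eventually_nhds.2 hs] with g' hg' using Or.inr ⟨rfl, hg'⟩

/-- every point of the circle of a two-pair centre has an orientation -/
theorem Irr.exists_ori (h : Irr U T) {z V : ℂ} {a b c d : Fin k} (hz : DPt T z a b c d)
    (hV : dist V z = 1) : ∃ σ, Ori U z V a b σ := by
  rcases h.sides hz hV with hs | hs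
  · exact ⟨1, Or.inl ⟨rfl, hs⟩⟩
  · exact ⟨-1, Or.inr ⟨rfl, hs⟩⟩

/-- `germ_sd` with an orientation: the circle `S(V)` at `z`, `g` interior to an exact `ab`-arc of
`S(z)` -/
theorem Irr.branch_ori (h : Irr U T) {z V g : ℂ} {a b : Fin k} {σ : ℝ} (hg : Arc T z g {a, b})
    (ho : Ori U z g a b σ) :
    (∀ τ : ℝ, τ * (σ * sg V z g) < 0 → ∀ᶠ t : ℝ in 𝓝[>] 0, b ∉ Pal U (hb V z τ t)) ∧
      ∀ τ : ℝ, 0 < τ * (σ * sg V z g) → ∀ᶠ t : ℝ in 𝓝[>] 0, a ∉ Pal U (hb V z τ t) := by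
  rcases ho with ⟨rfl, hs⟩ | ⟨rfl, hs⟩
  · obtain ⟨h1, h2⟩ := h.germ_sd (z := V) hg hs
    exact ⟨fun τ hτ => h1 τ (by linarith), fun τ hτ => h2 τ (by linarith)⟩
  · obtain ⟨h1, h2⟩ := h.germ_sd (z := V) (by rwa [pair_comm] : Arc T z g {b, a}) hs
    exact ⟨fun τ hτ => h2 τ (by linarith), fun τ hτ => h1 τ (by linarith)⟩

theorem sg_eq (z V g : ℂ) : sg V z g = cr (V - z) (g - z) := by
  unfold sg cr
  simp only [Complex.sub_re, Complex.sub_im]
  ring

/-- a property of the circle `S(z)` at `v` and on both half branches holds near `v` -/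
theorem ev_of_hb {z v : ℂ} (hv : dist v z = 1) {p : ℂ → Prop} (h0 : p v)
    (h1 : ∀ᶠ t : ℝ in 𝓝[>] 0, p (hb z v 1 t)) (h2 : ∀ᶠ t : ℝ in 𝓝[>] 0, p (hb z v (-1) t)) :
    ∀ᶠ q in 𝓝[sphere z 1] v, p q := by
  obtain ⟨ε₁, hε₁, e1⟩ := mem_nhdsGT_iff_exists_Ioo_subset.1 h1
  obtain ⟨ε₂, hε₂, e2⟩ := mem_nhdsGT_iff_exists_Ioo_subset.1 h2
  refine eventually_circle_of hv h0 (ε₁ := ε₂) (ε₂ := ε₁) hε₂ hε₁ ?_ ?_
  · intro t ht
    have := e2 ht
    have e : hb z v (-1) t = z + (v - z) * cis (-(1 * t)) := by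
      rw [hb]; congr 3; ring
    rwa [← e]
  · intro t ht
    have := e1 ht
    have e : hb z v 1 t = z + (v - z) * cis (-((-1) * t)) := by
      rw [hb]; congr 3; ring
    rwa [← e]

theorem Irr.zone_one (h : Irr U T) {z V g1 g2 : ℂ} {a b c d : Fin k} (hz : DPt T z a b c d)
    (hV : dist V z = 1) {σ1 σ2 : ℝ} (hg1 : Arc T z g1 {a, b}) (o1 : Ori U z g1 a b σ1)
    (hg2 : Arc T z g2 {a, b}) (o2 : Ori U z g2 a b σ2) (s1 : 0 < σ1 * cr (V - z) (g1 - z))
    (s2 : σ2 * cr (V - z) (g2 - z) < 0) : c ∉ Pal U V := by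
  intro hc
  have hzV : dist z V = 1 := by rw [dist_comm]; exact hV
  obtain ⟨p1, q1⟩ := h.branch_ori (V := V) hg1 o1
  obtain ⟨p2, q2⟩ := h.branch_ori (V := V) hg2 o2
  rw [sg_eq] at p1 q1 p2 q2
  obtain ⟨p, hp⟩ := hz.arc2
  have hnl := h.no_layer (z := z) (q := p) hp.1
  -- on both half branches only `d`
  have key : ∀ τ : ℝ, (∀ᶠ t : ℝ in 𝓝[>] 0, a ∉ Pal U (hb V z τ t)) →
      (∀ᶠ t : ℝ in 𝓝[>] 0, b ∉ Pal U (hb V z τ t)) →
      ∀ᶠ t : ℝ in 𝓝[>] 0, d ∈ Pal U (hb V z τ t) := by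
    intro τ ha hb'
    filter_upwards [ha, hb', (tendsto_hb V z τ).eventually (h.nhd z),
      (tendsto_hb V z τ).eventually hnl] with t h1 h2 h3 h4
    by_contra hd
    have h5 : T (hb V z τ t) ⊆ {c} := by
      intro i hi
      have h6 := h3 hi
      rw [hz.pal] at h6
      rcases h6 with rfl | rfl | rfl | h7
      · exact absurd (h.sub _ hi) h1
      · exact absurd (h.sub _ hi) h2
      · rfl
      · rw [mem_singleton_iff] at h7
        subst h7
        exact absurd (h.sub _ hi) hd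
    exact h.not_single hc (dist_hb hzV τ t) h5
  have k1 := key 1 (q1 1 (by linarith)) (p2 1 (by linarith))
  have k2 := key (-1) (q2 (-1) (by linarith)) (p1 (-1) (by linarith))
  have hdz : d ∈ Pal U z := h.sub z (by rw [hz.pal]; simp)
  have hev := ev_of_hb (p := fun q => d ∈ Pal U q) hzV hdz k1 k2
  obtain ⟨g, hg, hgV, hgV2⟩ := hp.exists_off_line (y := V)
  rcases h.mx.partner_line hzV hev (v := g) (by rw [dist_comm]; exact hg.1)
    (h.sub g (by rw [hg.mem]; simp)) with h1 | h1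
  · exact hgV h1
  · exact hgV2 h1

/-- **Zone lemma.** -/
theorem Irr.zone (h : Irr U T) {z V g1 g2 : ℂ} {a b c d : Fin k} (hz : DPt T z a b c d)
    (hV : dist V z = 1) {σ1 σ2 : ℝ} (hg1 : Arc T z g1 {a, b}) (o1 : Ori U z g1 a b σ1)
    (hg2 : Arc T z g2 {a, b}) (o2 : Ori U z g2 a b σ2) (s1 : 0 < σ1 * cr (V - z) (g1 - z))
    (s2 : σ2 * cr (V - z) (g2 - z) < 0) : c ∉ Pal U V ∧ d ∉ Pal U V :=
  ⟨h.zone_one hz hV hg1 o1 hg2 o2 s1 s2, h.zone_one hz.swap34 hV hg1 o1 hg2 o2 s1 s2⟩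

/-- an exact `ab`-point and an exact `cd`-point are not collinear with the centre -/
theorem Irr.cr_arcs_ne (h : Irr U T) {z g g' : ℂ} {a b c d : Fin k} (hz : DPt T z a b c d)
    (hg : Arc T z g {a, b}) (hg' : Arc T z g' {c, d}) : cr (g' - z) (g - z) ≠ 0 := by
  refine cr_ne_of hg'.1 hg.1 (fun h1 => ?_) (fun h1 => ?_)
  · have h2 : a ∈ T g := by rw [hg.mem]; simp
    rw [← h1, hg'.mem] at h2
    rcases h2 with h3 | h3
    · exact hz.ac h3
    · exact hz.ad h3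
  · have e : g' = 2 * z - g := by linear_combination h1
    refine h.anti hz hg.1 (h.sub g (by rw [hg.mem]; simp)) (h.sub g (by rw [hg.mem]; simp))
      (h.sub _ ?_) (h.sub _ ?_)
    · rw [← e, hg'.mem]; simp
    · rw [← e, hg'.mem]; simp

/-- the sign is constant in the `ab`-points -/
theorem Irr.zone_sign_one (h : Irr U T) {z g1 g2 g' : ℂ} {a b c d : Fin k}
    (hz : DPt T z a b c d) {σ1 σ2 : ℝ} (hg1 : Arc T z g1 {a, b}) (o1 : Ori U z g1 a b σ1)
    (hg2 : Arc T z g2 {a, b}) (o2 : Ori U z g2 a b σ2) (hg' : Arc T z g' {c, d}) :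
    0 < (σ1 * cr (g' - z) (g1 - z)) * (σ2 * cr (g' - z) (g2 - z)) := by
  have n1 := h.cr_arcs_ne hz hg1 hg'
  have n2 := h.cr_arcs_ne hz hg2 hg'
  have m1 : σ1 * cr (g' - z) (g1 - z) ≠ 0 := by
    refine mul_ne_zero ?_ n1
    rintro rfl
    have := o1.sq
    norm_num at this
  have m2 : σ2 * cr (g' - z) (g2 - z) ≠ 0 := by
    refine mul_ne_zero ?_ n2
    rintro rfl
    have := o2.sq
    norm_num at this
  have hc : c ∈ Pal U g' := h.sub _ (by rw [hg'.mem]; simp)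
  rcases lt_or_gt_of_ne m1 with h1 | h1 <;> rcases lt_or_gt_of_ne m2 with h2 | h2
  · exact mul_pos_of_neg_of_neg h1 h2
  · exact absurd hc (h.zone hz hg'.1 hg2 o2 hg1 o1 h2 h1).1
  · exact absurd hc (h.zone hz hg'.1 hg1 o1 hg2 o2 h1 h2).1
  · exact mul_pos h1 h2

/-- **Sign rule for zones.** -/
theorem Irr.zone_sign (h : Irr U T) {z g1 g2 g1' g2' : ℂ} {a b c d : Fin k}
    (hz : DPt T z a b c d) {σ1 σ2 ρ1 ρ2 : ℝ} (hg1 : Arc T z g1 {a, b})
    (o1 : Ori U z g1 a b σ1) (hg2 : Arc T z g2 {a, b}) (o2 : Ori U z g2 a b σ2)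
    (hg1' : Arc T z g1' {c, d}) (o1' : Ori U z g1' c d ρ1) (hg2' : Arc T z g2' {c, d})
    (o2' : Ori U z g2' c d ρ2) :
    0 < (ρ1 * σ1 * cr (g1' - z) (g1 - z)) * (ρ2 * σ2 * cr (g2' - z) (g2 - z)) := by
  have h1 := h.zone_sign_one hz hg1 o1 hg2 o2 hg1'
  have h2 := h.zone_sign_one hz.swap hg1' o1' hg2' o2' hg2
  have e1 : cr (g2 - z) (g1' - z) = -cr (g1' - z) (g2 - z) := by unfold cr; ring
  have e2 : cr (g2 - z) (g2' - z) = -cr (g2' - z) (g2 - z) := by unfold cr; ring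
  rw [e1, e2] at h2
  have h3 := mul_pos h1 h2
  have h4 : 0 < (ρ1 * σ1 * cr (g1' - z) (g1 - z)) * (ρ2 * σ2 * cr (g2' - z) (g2 - z)) *
      (cr (g1' - z) (g2 - z)) ^ 2 := by
    have e3 : (ρ1 * σ1 * cr (g1' - z) (g1 - z)) * (ρ2 * σ2 * cr (g2' - z) (g2 - z)) *
      (cr (g1' - z) (g2 - z)) ^ 2 = (σ1 * cr (g1' - z) (g1 - z)) * (σ2 * cr (g1' - z) (g2 - z)) *
        ((ρ1 * -cr (g1' - z) (g2 - z)) * (ρ2 * -cr (g2' - z) (g2 - z))) := by ring
    rw [e3]; exact h3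
  by_contra hcon
  have h5 := mul_nonpos_of_nonpos_of_nonneg (not_lt.1 hcon) (sq_nonneg (cr (g1' - z) (g2 - z)))
  linarith

/-- the point of `S(z)` at the angle `s` from `v` -/
def an (z v : ℂ) (s : ℝ) : ℂ := z + (v - z) * cis s

theorem hb_eq_an (z v : ℂ) (τ t : ℝ) : hb z v τ t = an z v (τ * t) := rfl

theorem an_zero (z v : ℂ) : an z v 0 = v := by
  rw [an, cis_zero394, mul_one, add_sub_cancel]

theorem continuous_an (z v : ℂ) : Continuous (an z v) :=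
  continuous_const.add (continuous_const.mul continuous_cis)

theorem dist_an {z v : ℂ} (hv : dist v z = 1) (s : ℝ) : dist (an z v s) z = 1 := dist_arc hv s

theorem an_an (z v : ℂ) (s t : ℝ) : an z (an z v s) t = an z v (s + t) := by
  unfold an
  rw [add_sub_cancel_left, cis_add394]
  ring

theorem tendsto_an (z v : ℂ) : Tendsto (an z v) (𝓝 0) (𝓝 v) := by
  have := (continuous_an z v).tendsto 0
  rwa [an_zero] at this

/-- the cross product of two directions -/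
theorem cr_an {z v : ℂ} (hv : dist v z = 1) (s r : ℝ) :
    cr (an z v s - z) (an z v r - z) = Real.sin (r - s) := by
  have hn : (v - z).re ^ 2 + (v - z).im ^ 2 = 1 := ip_sq (by rw [← dist_eq_norm]; exact hv)
  unfold an cr
  rw [add_sub_cancel_left, add_sub_cancel_left]
  simp only [Complex.mul_re, Complex.mul_im, cis_re, cis_im]
  rw [Real.sin_sub]
  linear_combination (Real.sin r * Real.cos s - Real.cos r * Real.sin s) * hn

theorem cr_an' {z v : ℂ} (hv : dist v z = 1) (r : ℝ) :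
    cr (v - z) (an z v r - z) = Real.sin r := by
  have := cr_an hv 0 r
  rwa [an_zero, sub_zero] at this

/-- exact arcs in the angle coordinate -/
theorem arc_an {z v : ℂ} (hv : dist v z = 1) {P : Set (Fin k)} (s : ℝ) :
    (∀ᶠ r in 𝓝 s, T (an z v r) = P) ↔ Arc T z (an z v s) P := by
  have e : (∀ᶠ q in 𝓝[sphere z 1] (an z v s), T q = P) ↔ ∀ᶠ r in 𝓝 s, T (an z v r) = P := by
    rw [eventually_circle (dist_an hv s) (p := fun q => T q = P)]
    have e1 : ∀ t : ℝ, z + (an z v s - z) * cis t = an z v (s + t) := fun t => an_an z v s t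
    simp only [e1]
    have e2 : 𝓝 s = Filter.map (fun t : ℝ => s + t) (𝓝 0) := by
      rw [map_add_left_nhds, add_zero]
    rw [e2, eventually_map]
  rw [← e]
  exact ⟨fun h1 => ⟨dist_an hv s, h1⟩, fun h1 => h1.2⟩

/-- near any angle there are angles with locally constant palette -/
theorem Irr.const_an (h : Irr U T) (z v : ℂ) {O : Set ℝ} (hO : IsOpen O) (hne : O.Nonempty) :
    ∃ s ∈ O, ∀ᶠ r in 𝓝 s, T (an z v r) = T (an z v s) := by
  have hne' : ((fun s => (T (an z v s)).ncard) '' O).Nonempty := hne.image _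
  obtain ⟨_, ⟨s, hs, rfl⟩, hmin⟩ :=
    WellFounded.has_min (r := ((· < ·) : ℕ → ℕ → Prop)) wellFounded_lt _ hne'
  refine ⟨s, hs, ?_⟩
  filter_upwards [hO.mem_nhds hs, ((continuous_an z v).continuousAt (x := s)).eventually
    (h.nhd (an z v s))] with r hr h1
  exact Set.eq_of_subset_of_ncard_le h1 (not_lt.1 (hmin _ ⟨r, hr, rfl⟩)) (Set.toFinite _)

/-- **Exact `ab`-arcs on both sides.** -/
theorem Irr.both_sides (h : Irr U T) {z V : ℂ} {a b c d : Fin k} (hz : DPt T z a b c d)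
    (hV : dist V z = 1) (h1 : ∃ᶠ t : ℝ in 𝓝[>] 0, Arc T z (hb z V 1 t) {a, b})
    (h2 : ∃ᶠ t : ℝ in 𝓝[>] 0, Arc T z (hb z V (-1) t) {a, b}) :
    c ∉ Pal U V ∧ d ∉ Pal U V := by
  obtain ⟨σ, hσ⟩ := h.exists_ori hz hV
  have hsmall : ∀ᶠ t : ℝ in 𝓝[>] 0, 0 < t ∧ t < 1 := by
    filter_upwards [self_mem_nhdsWithin,
      mem_nhdsWithin_of_mem_nhds (Iio_mem_nhds (show (0 : ℝ) < 1 by norm_num))] with r h1 h2
    exact ⟨h1, h2⟩
  obtain ⟨t1, ht1, o1, ht1'⟩ := (h1.and_eventually (((tendsto_hb z V 1).eventually hσ.nhd).and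
    hsmall)).exists
  obtain ⟨t2, ht2, o2, ht2'⟩ := (h2.and_eventually (((tendsto_hb z V (-1)).eventually hσ.nhd).and
    hsmall)).exists
  have p1 : 0 < Real.sin t1 := Real.sin_pos_of_pos_of_lt_pi ht1'.1 (by linarith [Real.pi_gt_three])
  have p2 : 0 < Real.sin t2 := Real.sin_pos_of_pos_of_lt_pi ht2'.1 (by linarith [Real.pi_gt_three])
  have e1 : cr (V - z) (hb z V 1 t1 - z) = Real.sin t1 := by
    rw [hb_eq_an, cr_an' hV, one_mul]
  have e2 : cr (V - z) (hb z V (-1) t2 - z) = -Real.sin t2 := by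
    rw [hb_eq_an, cr_an' hV, neg_one_mul, Real.sin_neg]
  rcases hσ with ⟨rfl, -⟩ | ⟨rfl, -⟩
  · exact h.zone hz hV ht1 o1 ht2 o2 (by rw [e1]; linarith) (by rw [e2]; linarith)
  · exact h.zone hz hV ht2 o2 ht1 o1 (by rw [e2]; linarith) (by rw [e1]; linarith)

/-- **Zone lemma on an interval of angles**: exact `ab` at `r1 < s < r2` with the same orientation,
`r2 - r1` less than a half turn: no `c`, `d` at `s` -/
theorem Irr.zone_an (h : Irr U T) {z v : ℂ} {a b c d : Fin k} (hz : DPt T z a b c d)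
    (hv : dist v z = 1) {σ r1 s r2 : ℝ} (h1 : r1 < s) (h2 : s < r2) (h3 : s - r1 < Real.pi)
    (h4 : r2 - s < Real.pi) (hg1 : Arc T z (an z v r1) {a, b}) (hg2 : Arc T z (an z v r2) {a, b})
    (o1 : Ori U z (an z v r1) a b σ) (o2 : Ori U z (an z v r2) a b σ) :
    c ∉ Pal U (an z v s) ∧ d ∉ Pal U (an z v s) := by
  have p1 : 0 < Real.sin (s - r1) := Real.sin_pos_of_pos_of_lt_pi (by linarith) h3
  have p2 : 0 < Real.sin (r2 - s) := Real.sin_pos_of_pos_of_lt_pi (by linarith) h4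
  have e1 : cr (an z v s - z) (an z v r1 - z) = -Real.sin (s - r1) := by
    rw [cr_an hv, ← Real.sin_neg, neg_sub]
  have e2 := cr_an hv s r2
  have hσ : σ = 1 ∨ σ = -1 := by
    rcases o1 with h5 | h5
    · exact Or.inl h5.1
    · exact Or.inr h5.1
  rcases hσ with rfl | rfl
  · exact h.zone hz (dist_an hv s) hg2 o2 hg1 o1 (by rw [e2]; linarith) (by rw [e1]; linarith)
  · exact h.zone hz (dist_an hv s) hg1 o1 hg2 o2 (by rw [e1]; linarith) (by rw [e2]; linarith)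

/-- **One half branch**: exact `ab`-arcs and exact `cd`-arcs do not both accumulate at `V` from the
same side. -/
theorem Irr.half_zone (h : Irr U T) {z V : ℂ} {a b c d : Fin k} (hz : DPt T z a b c d)
    (hV : dist V z = 1) {τ : ℝ} (hτ : τ = 1 ∨ τ = -1) :
    (∀ᶠ t : ℝ in 𝓝[>] 0, ¬ Arc T z (hb z V τ t) {a, b}) ∨
      ∀ᶠ t : ℝ in 𝓝[>] 0, ¬ Arc T z (hb z V τ t) {c, d} := by
  by_contra hcon
  rw [not_or] at hcon
  obtain ⟨hA, hC⟩ : (∃ᶠ t : ℝ in 𝓝[>] 0, Arc T z (hb z V τ t) {a, b}) ∧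
    ∃ᶠ t : ℝ in 𝓝[>] 0, Arc T z (hb z V τ t) {c, d} := hcon
  obtain ⟨σ, hσ⟩ := h.exists_ori hz hV
  have hsmall : ∀ δ : ℝ, 0 < δ → ∀ᶠ t : ℝ in 𝓝[>] 0, 0 < t ∧ t < δ := by
    intro δ hδ
    filter_upwards [self_mem_nhdsWithin, mem_nhdsWithin_of_mem_nhds (Iio_mem_nhds hδ)] with r h1 h2
    exact ⟨h1, h2⟩
  have hor := (tendsto_hb z V τ).eventually hσ.nhd
  obtain ⟨t3, ht3, o3, ht3'⟩ := (hA.and_eventually (hor.and (hsmall 1 one_pos))).exists
  obtain ⟨t2, ht2, ht2'⟩ := (hC.and_eventually (hsmall t3 ht3'.1)).exists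
  obtain ⟨t1, ht1, o1, ht1'⟩ := (hA.and_eventually (hor.and (hsmall t2 ht2'.1))).exists
  have hπ := Real.pi_gt_three
  have hc : c ∈ Pal U (hb z V τ t2) := h.sub _ (by rw [ht2.mem]; simp)
  rw [hb_eq_an] at ht1 ht2 ht3 o1 o3 hc
  rcases hτ with rfl | rfl
  · exact (h.zone_an hz hV (r1 := 1 * t1) (s := 1 * t2) (r2 := 1 * t3) (by linarith) (by linarith)
      (by linarith) (by linarith) ht1 ht3 o1 o3).1 hc
  · exact (h.zone_an hz hV (r1 := -1 * t3) (s := -1 * t2) (r2 := -1 * t1) (by linarith)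
      (by linarith) (by linarith) (by linarith) ht3 ht1 o3 o1).1 hc

end Vale.Agent.P032.Six
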