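import Vale.Agent.P032.H630.Sign

/-!
# P032: zones at an alpha point, counted from the alpha point

Frame `Irr U T`, six colours, `A : Alp U T z V x x' c d k k' ρ σ`: `z = (x x' | c d)`, `V ∈ S(z)`,
`V = (x k | x' k')`, exact `x x'`-arc of `S(z)` at `V` on the half branch `ρ`, `σ = 1` if `x` is inside
`S(z)` at `V`.  The points of `S(V)` are `an V z φ` (angle `φ` counterclockwise from `z`).

* `Alp.zone` : exact `xk`-points have angle `φ`, exact `x'k'`-points angle `ψ` modulo a half turn with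
  `φ` before `ψ` in the direction `-ρ σ`: `ρ σ sin φ sin ψ sin (ψ - φ) < 0`.
* `Alp.owner_after`, `Alp.owner_before` : the centre `w` of a unit circle carrying `x` and `k'` on a
  half branch at `V` is (modulo a half turn) strictly after all exact `xk`-points and strictly before
  all exact `x'k'`-points.  The same for a circle carrying `x'` and `k` (`Alp.owner_after'`,
  `Alp.owner_before'`).
-/

open Set Filter Topology Metric

noncomputable section

namespace Vale.Agent.P032.Six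

variable {U : Fin 6 → Set ℂ} {T : ℂ → Set (Fin 6)}

/-- a strict sign near `φ` off the zeros of `sin (φ' - ω)` is strict at `φ` -/
theorem sin_sign {e φ ω : ℝ}
    (hF : ∀ᶠ φ' in 𝓝 φ, Real.sin (φ' - ω) ≠ 0 → e * Real.sin (φ' - ω) < 0) :
    e * Real.sin (φ - ω) < 0 := by
  by_cases h0 : Real.sin (φ - ω) = 0
  · exfalso
    have hc : Real.cos (φ - ω) ≠ 0 := by
      intro h1
      have := Real.sin_sq_add_cos_sq (φ - ω)
      rw [h0, h1] at this
      norm_num at this
    obtain ⟨δ, hδ, hb⟩ := Metric.eventually_nhds_iff.1 hF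
    set t := min (δ / 2) 1 with ht
    have ht0 : 0 < t := lt_min (by linarith) one_pos
    have htδ : t < δ := lt_of_le_of_lt (min_le_left _ _) (by linarith)
    have ht1 : t ≤ 1 := min_le_right _ _
    have hst : 0 < Real.sin t :=
      Real.sin_pos_of_pos_of_lt_pi ht0 (by linarith [Real.pi_gt_three])
    have e1 : Real.sin (φ + t - ω) = Real.cos (φ - ω) * Real.sin t := by
      rw [show φ + t - ω = (φ - ω) + t by ring, Real.sin_add, h0]; ring
    have e2 : Real.sin (φ - t - ω) = -(Real.cos (φ - ω) * Real.sin t) := by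
      rw [show φ - t - ω = (φ - ω) - t by ring, Real.sin_sub, h0]; ring
    have m1 := hb (y := φ + t) (by rw [Real.dist_eq, add_sub_cancel_left, abs_of_pos ht0]; exact htδ)
      (by rw [e1]; exact mul_ne_zero hc hst.ne')
    have m2 := hb (y := φ - t) (by
        rw [Real.dist_eq, show φ - t - φ = -t by ring, abs_neg, abs_of_pos ht0]; exact htδ)
      (by rw [e2]; exact neg_ne_zero.2 (mul_ne_zero hc hst.ne'))
    rw [e1] at m1
    rw [e2] at m2
    linarith
  · exact hF.self_of_nhds h0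

theorem sg_an {V z : ℂ} (hz : dist z V = 1) (α β : ℝ) :
    sg (an V z α) V (an V z β) = Real.sin (β - α) := by
  have := cr_an hz α β
  unfold sg cr at *
  simp only [Complex.sub_re, Complex.sub_im] at *
  linarith

theorem an_ne {V z : ℂ} (hz : dist z V = 1) {α β : ℝ} (h : Real.sin (α - β) ≠ 0) :
    an V z α ≠ an V z β ∧ an V z α + an V z β ≠ 2 * V := by
  constructor
  · intro hcon
    apply h
    have := cr_an hz β α
    rw [← this, hcon]
    unfold cr; ring
  · intro hcon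
    apply h
    have h1 := cr_an hz β α
    rw [← h1]
    have e : an V z α - V = -(an V z β - V) := by linear_combination hcon
    rw [e]
    unfold cr; simp only [Complex.neg_re, Complex.neg_im]; ring

/-- a colour carried by a half branch `τ` at `V` of the circle about `an V z ω`, and an exact
`ij`-point `an V z φ` of `S(V)` with side `μ` of `i` -/
theorem Irr.exact_sign (h : Irr U T) {V z : ℂ} (hz : dist z V = 1) {i j : Fin 6} {φ ω μ τ : ℝ}
    (hA : Arc T V (an V z φ) {i, j}) (ho : Ori U V (an V z φ) i j μ) (hτ : τ = 1 ∨ τ = -1)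
    (hi : ∀ᶠ t : ℝ in 𝓝[>] 0, i ∈ Pal U (hb (an V z ω) V τ t)) :
    μ * τ * Real.sin (φ - ω) < 0 := by
  refine sin_sign ?_
  filter_upwards [eventually_eventually_nhds.2 ((arc_an hz φ).2 hA),
    (continuous_an V z).continuousAt.eventually ho.nhd] with φ' h1 h2 h3
  have hA' : Arc T V (an V z φ') {i, j} := (arc_an hz φ').1 h1
  obtain ⟨n1, n2⟩ := an_ne hz h3
  have h4 := (Ori.sd_center h hA' h2).sign (z := an V z φ') (w := an V z ω) (V := V)
    (by rw [dist_comm]; exact dist_an hz ω) (dist_an hz φ') n1 n2 hτ hi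
  rwa [sg_an hz] at h4

namespace Alp

variable {z V : ℂ} {x x' c d k k' : Fin 6} {ρ σ : ℝ}

/-- the side of `x` at an exact `xk`-point -/
theorem side_sign (A : Alp U T z V x x' c d k k' ρ σ) (h : Irr U T) {φ μ : ℝ}
    (hA : Arc T V (an V z φ) {x, k}) (ho : Ori U V (an V z φ) x k μ) :
    μ * ρ * Real.sin φ < 0 := by
  have h1 := h.exact_sign A.Vz hA ho (ω := 0) A.hρ (by
    rw [an_zero]
    exact (BadQ.pal_of_exact h A.ex).mono fun t ht => ht.1)
  rwa [sub_zero] at h1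

/-- an owner of another wall with the colour `x`: its half branch -/
theorem owner_sign (A : Alp U T z V x x' c d k k' ρ σ) {ω τ : ℝ} (hω : Real.sin ω ≠ 0)
    (hτ : τ = 1 ∨ τ = -1) (hi : ∀ᶠ t : ℝ in 𝓝[>] 0, x ∈ Pal U (hb (an V z ω) V τ t)) :
    0 < σ * τ * Real.sin ω := by
  obtain ⟨n1, n2⟩ := an_ne A.Vz (α := 0) (β := ω) (by
    rw [zero_sub, Real.sin_neg]; exact neg_ne_zero.2 hω)
  rw [an_zero] at n1 n2
  have h4 := A.ori.sign (w := an V z ω) (V := V) (by rw [dist_comm]; exact dist_an A.Vz ω) A.Vz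
    n1 n2 hτ hi
  have e := sg_an A.Vz ω 0
  rw [an_zero, zero_sub, Real.sin_neg] at e
  rw [e] at h4
  linarith

/-- **Zones at an alpha point.** -/
theorem zone (A : Alp U T z V x x' c d k k' ρ σ) (h : Irr U T) {φ ψ : ℝ}
    (hg : Arc T V (an V z φ) {x, k}) (hg' : Arc T V (an V z ψ) {x', k'}) :
    ρ * σ * (Real.sin φ * Real.sin ψ * Real.sin (ψ - φ)) < 0 := by
  obtain ⟨μ, hμ⟩ := h.exists_ori A.hDV (dist_an A.Vz φ)
  obtain ⟨μ', hμ'⟩ := h.exists_ori A.hDV.swap (dist_an A.Vz ψ)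
  have s1 := A.side_sign h hg hμ
  have s2 := A.swap.side_sign h hg' hμ'
  have hφ : Real.sin φ ≠ 0 := by
    intro h0; rw [h0, mul_zero] at s1; exact lt_irrefl _ s1
  -- the ray of `x'`
  obtain ⟨s, hs, r1, -⟩ := h.d0_sign A.hDV.swap hg
  have ip1 : ip (s * (Complex.I * (an V z φ - V))) (z - V) = -(s * Real.sin φ) := by
    rw [ip_smul, ip_I]
    have := cr_an A.Vz φ 0
    rw [an_zero, zero_sub, Real.sin_neg] at this
    rw [this]; ring
  have ip2 : ip (s * (Complex.I * (an V z φ - V))) (an V z ψ - V) = s * Real.sin (ψ - φ) := by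
    rw [ip_smul, ip_I, cr_an A.Vz]
  have hs0 : s ≠ 0 := by rcases hs with rfl | rfl <;> norm_num
  -- the side of `S(z)`
  have t1 : 0 < σ * s * Real.sin φ := by
    by_contra hcon
    have hne : σ * s * Real.sin φ ≠ 0 := by
      refine mul_ne_zero (mul_ne_zero ?_ hs0) hφ
      rcases A.ori with ⟨rfl, -⟩ | ⟨rfl, -⟩ <;> norm_num
    have hlt : σ * s * Real.sin φ < 0 := lt_of_le_of_ne (not_lt.1 hcon) hne
    rcases A.ori with ⟨rfl, hS⟩ | ⟨rfl, hS⟩
    · obtain ⟨r, h1, h2, h3⟩ := (r1.and ((ray_in A.hV (by rw [ip1]; linarith)).and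
        ((tendsto_ray V _).eventually hS))).exists
      exact (h3.2 h2) (subset_closure h1)
    · obtain ⟨r, h1, h2, h3⟩ := (r1.and ((ray_out A.hV (by rw [ip1]; linarith)).and
        ((tendsto_ray V _).eventually hS))).exists
      exact (h3.1 h2) (subset_closure h1)
  -- the side of `S(g')`
  have hne2 : Real.sin (ψ - φ) ≠ 0 := by
    have := h.cr_arcs_ne A.hDV hg hg'
    rw [cr_an A.Vz] at this
    intro h0
    apply this
    rw [show φ - ψ = -(ψ - φ) by ring, Real.sin_neg, h0, neg_zero]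
  have t2 : 0 < μ' * s * Real.sin (ψ - φ) := by
    by_contra hcon
    have hne : μ' * s * Real.sin (ψ - φ) ≠ 0 := by
      refine mul_ne_zero (mul_ne_zero ?_ hs0) hne2
      rcases hμ' with ⟨rfl, -⟩ | ⟨rfl, -⟩ <;> norm_num
    have hlt : μ' * s * Real.sin (ψ - φ) < 0 := lt_of_le_of_ne (not_lt.1 hcon) hne
    have hVg : dist V (an V z ψ) = 1 := by rw [dist_comm]; exact dist_an A.Vz ψ
    rcases Ori.sd_center h hg' hμ' with ⟨rfl, hS⟩ | ⟨rfl, hS⟩
    · obtain ⟨r, h1, h2, h3⟩ := (r1.and ((ray_out hVg (by rw [ip2]; linarith)).and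
        ((tendsto_ray V _).eventually hS))).exists
      exact (h3.1 h2) (subset_closure h1)
    · obtain ⟨r, h1, h2, h3⟩ := (r1.and ((ray_in hVg (by rw [ip2]; linarith)).and
        ((tendsto_ray V _).eventually hS))).exists
      exact (h3.2 h2) (subset_closure h1)
  have hss : s * s = 1 := by rcases hs with rfl | rfl <;> norm_num
  have hmm : μ' * μ' = 1 := hμ'.sq
  have h5 : (σ * s * Real.sin φ) * (μ' * s * Real.sin (ψ - φ)) * (μ' * ρ * Real.sin ψ) < 0 :=
    mul_neg_of_pos_of_neg (mul_pos t1 t2) s2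
  have e : (σ * s * Real.sin φ) * (μ' * s * Real.sin (ψ - φ)) * (μ' * ρ * Real.sin ψ) =
      (s * s) * (μ' * μ') * (ρ * σ * (Real.sin φ * Real.sin ψ * Real.sin (ψ - φ))) := by ring
  rw [e, hss, hmm] at h5
  linarith

/-- **The owner of `x | k'` is after the exact `xk`-points.** -/
theorem owner_after (A : Alp U T z V x x' c d k k' ρ σ) (h : Irr U T) {φ ω τ : ℝ}
    (hg : Arc T V (an V z φ) {x, k}) (hω : Real.sin ω ≠ 0) (hτ : τ = 1 ∨ τ = -1)
    (hi : ∀ᶠ t : ℝ in 𝓝[>] 0, x ∈ Pal U (hb (an V z ω) V τ t)) :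
    ρ * σ * (Real.sin φ * Real.sin ω * Real.sin (ω - φ)) < 0 := by
  obtain ⟨μ, hμ⟩ := h.exists_ori A.hDV (dist_an A.Vz φ)
  have s1 := A.side_sign h hg hμ
  have s2 := A.owner_sign hω hτ hi
  have s3 := h.exact_sign A.Vz hg hμ hτ hi
  have hττ : τ * τ = 1 := by rcases hτ with rfl | rfl <;> norm_num
  have e0 : Real.sin (φ - ω) = -Real.sin (ω - φ) := by
    rw [show φ - ω = -(ω - φ) by ring, Real.sin_neg]
  have h5 : (σ * τ * Real.sin ω) * (μ * τ * Real.sin (φ - ω)) * (μ * ρ * Real.sin φ) > 0 :=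
    mul_pos_of_neg_of_neg (mul_neg_of_pos_of_neg s2 s3) s1
  have e : (σ * τ * Real.sin ω) * (μ * τ * Real.sin (φ - ω)) * (μ * ρ * Real.sin φ) =
      (τ * τ) * (μ * μ) * (-(ρ * σ * (Real.sin φ * Real.sin ω * Real.sin (ω - φ)))) := by
    rw [e0]; ring
  rw [e, hττ, hμ.sq] at h5
  linarith

/-- **The owner of `x | k'` is before the exact `x'k'`-points.** -/
theorem owner_before (A : Alp U T z V x x' c d k k' ρ σ) (h : Irr U T) {ψ ω τ : ℝ}
    (hg : Arc T V (an V z ψ) {x', k'}) (hω : Real.sin ω ≠ 0) (hτ : τ = 1 ∨ τ = -1)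
    (hi : ∀ᶠ t : ℝ in 𝓝[>] 0, x ∈ Pal U (hb (an V z ω) V τ t))
    (hk : ∀ᶠ t : ℝ in 𝓝[>] 0, k' ∈ Pal U (hb (an V z ω) V τ t)) :
    ρ * σ * (Real.sin ω * Real.sin ψ * Real.sin (ψ - ω)) < 0 := by
  obtain ⟨μ, hμ⟩ := h.exists_ori A.hDV.swap (dist_an A.Vz ψ)
  have s1 := A.swap.side_sign h hg hμ
  have s2 := A.owner_sign hω hτ hi
  have hμ2 : Ori U V (an V z ψ) k' x' (-μ) := by
    rcases hμ with ⟨rfl, hs⟩ | ⟨rfl, hs⟩
    · exact Or.inr ⟨rfl, hs⟩
    · exact Or.inl ⟨by norm_num, hs⟩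
  have s3 := h.exact_sign A.Vz (by rwa [pair_comm] : Arc T V (an V z ψ) {k', x'}) hμ2 hτ hk
  have hττ : τ * τ = 1 := by rcases hτ with rfl | rfl <;> norm_num
  have h5 : (σ * τ * Real.sin ω) * (-μ * τ * Real.sin (ψ - ω)) * (μ * ρ * Real.sin ψ) > 0 :=
    mul_pos_of_neg_of_neg (mul_neg_of_pos_of_neg s2 s3) s1
  have e : (σ * τ * Real.sin ω) * (-μ * τ * Real.sin (ψ - ω)) * (μ * ρ * Real.sin ψ) =
      (τ * τ) * (μ * μ) * (-(ρ * σ * (Real.sin ω * Real.sin ψ * Real.sin (ψ - ω)))) := by ring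
  rw [e, hττ, hμ.sq] at h5
  linarith

/-- **The owner of `x' | k` is before the exact `x'k'`-points.** -/
theorem owner_after' (A : Alp U T z V x x' c d k k' ρ σ) (h : Irr U T) {ψ ω τ : ℝ}
    (hg : Arc T V (an V z ψ) {x', k'}) (hω : Real.sin ω ≠ 0) (hτ : τ = 1 ∨ τ = -1)
    (hi : ∀ᶠ t : ℝ in 𝓝[>] 0, x' ∈ Pal U (hb (an V z ω) V τ t)) :
    ρ * σ * (Real.sin ω * Real.sin ψ * Real.sin (ψ - ω)) < 0 := by
  have := A.swap.owner_after h hg hω hτ hi
  have e0 : Real.sin (ω - ψ) = -Real.sin (ψ - ω) := by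
    rw [show ω - ψ = -(ψ - ω) by ring, Real.sin_neg]
  rw [e0] at this
  linarith

/-- **The owner of `x' | k` is after the exact `xk`-points.** -/
theorem owner_before' (A : Alp U T z V x x' c d k k' ρ σ) (h : Irr U T) {φ ω τ : ℝ}
    (hg : Arc T V (an V z φ) {x, k}) (hω : Real.sin ω ≠ 0) (hτ : τ = 1 ∨ τ = -1)
    (hi : ∀ᶠ t : ℝ in 𝓝[>] 0, x' ∈ Pal U (hb (an V z ω) V τ t))
    (hk : ∀ᶠ t : ℝ in 𝓝[>] 0, k ∈ Pal U (hb (an V z ω) V τ t)) :
    ρ * σ * (Real.sin φ * Real.sin ω * Real.sin (ω - φ)) < 0 := by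
  have := A.swap.owner_before h hg hω hτ hi hk
  have e0 : Real.sin (φ - ω) = -Real.sin (ω - φ) := by
    rw [show φ - ω = -(ω - φ) by ring, Real.sin_neg]
  rw [e0] at this
  linarith

end Alp

end Vale.Agent.P032.Six
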