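import Vale.Agent.P032.H630.ZoneV

/-!
# P032: zones at any special end, counted from it (alpha, delta, beta in one form)

Frame `Irr U T`, six colours.  `Vx U T z V x x' c d k k' ρ σ`: `z = (x x' | c d)`, `V ∈ S(z)`,
`V = (x k | x' k')` with ARBITRARY `k, k'` (alpha: `k, k'` not in `T z`; delta: one of them in
`{c, d}`; beta: both), exact `x x'`-arc of `S(z)` at `V` on the half branch `ρ`, `σ = 1` if `x` is
inside `S(z)` at `V`, `-1` if it is outside.  The points of `S(V)` are `an V z φ`.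

* `Vx.zone` : exact `xk`-points `φ`, exact `x'k'`-points `ψ`: `ρ σ sin φ sin ψ sin (ψ - φ) < 0`.
* `Vx.owner_after`, `Vx.owner_before` (and primed forms) : owners of the walls `x | k'` and
  `x' | k` lie strictly between the two zones (modulo a half turn).
* `Vx.z_end`, `Vx.z_end'` : `z` itself as an end of an exact arc of `S(V)` (delta, beta).
-/

open Set Filter Topology Metric

noncomputable section

namespace Vale.Agent.P032.Six

variable {U : Fin 6 → Set ℂ} {T : ℂ → Set (Fin 6)}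

/-- a special end -/
structure Vx (U : Fin 6 → Set ℂ) (T : ℂ → Set (Fin 6)) (z V : ℂ) (x x' c d k k' : Fin 6)
    (ρ σ : ℝ) : Prop where
  hz : DPt T z x x' c d
  hV : dist V z = 1
  hDV : DPt T V x k x' k'
  hρ : ρ = 1 ∨ ρ = -1
  ex : ∀ᶠ t : ℝ in 𝓝[>] 0, T (hb z V ρ t) = {x, x'}
  ori : Ori U z V x x' σ

theorem Alp.toVx {z V : ℂ} {x x' c d k k' : Fin 6} {ρ σ : ℝ}
    (A : Alp U T z V x x' c d k k' ρ σ) : Vx U T z V x x' c d k k' ρ σ :=
  ⟨A.hz, A.hV, A.hDV, A.hρ, A.ex, A.ori⟩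

namespace Vx

variable {z V : ℂ} {x x' c d k k' : Fin 6} {ρ σ : ℝ}

theorem swap (A : Vx U T z V x x' c d k k' ρ σ) : Vx U T z V x' x c d k' k ρ (-σ) where
  hz := A.hz.swap12
  hV := A.hV
  hDV := A.hDV.swap
  hρ := A.hρ
  ex := by rw [pair_comm]; exact A.ex
  ori := by
    rcases A.ori with ⟨rfl, hs⟩ | ⟨rfl, hs⟩
    · exact Or.inr ⟨rfl, hs⟩
    · exact Or.inl ⟨by norm_num, hs⟩

theorem Vz (A : Vx U T z V x x' c d k k' ρ σ) : dist z V = 1 := by
  rw [dist_comm]; exact A.hV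

theorem xV (A : Vx U T z V x x' c d k k' ρ σ) : x ∈ T V := by rw [A.hDV.pal]; simp
theorem xV' (A : Vx U T z V x x' c d k k' ρ σ) : x' ∈ T V := by rw [A.hDV.pal]; simp
theorem kV (A : Vx U T z V x x' c d k k' ρ σ) : k ∈ T V := by rw [A.hDV.pal]; simp
theorem kV' (A : Vx U T z V x x' c d k k' ρ σ) : k' ∈ T V := by rw [A.hDV.pal]; simp

theorem sq (A : Vx U T z V x x' c d k k' ρ σ) : ρ * ρ = 1 ∧ σ * σ = 1 := by
  refine ⟨?_, A.ori.sq⟩
  rcases A.hρ with rfl | rfl <;> norm_num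

/-- the side of `x` at an exact `xk`-point -/
theorem side_sign (A : Vx U T z V x x' c d k k' ρ σ) (h : Irr U T) {φ μ : ℝ}
    (hA : Arc T V (an V z φ) {x, k}) (ho : Ori U V (an V z φ) x k μ) :
    μ * ρ * Real.sin φ < 0 := by
  have h1 := h.exact_sign A.Vz hA ho (ω := 0) A.hρ (by
    rw [an_zero]
    exact (BadQ.pal_of_exact h A.ex).mono fun t ht => ht.1)
  rwa [sub_zero] at h1

/-- an owner of another wall with the colour `x`: its half branch -/
theorem owner_sign (A : Vx U T z V x x' c d k k' ρ σ) {ω τ : ℝ} (hω : Real.sin ω ≠ 0)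
    (hτ : τ = 1 ∨ τ = -1) (hi : ∀ᶠ t : ℝ in 𝓝[>] 0, x ∈ Pal U (hb (an V z ω) V τ t)) :
    0 < σ * τ * Real.sin ω := by
  obtain ⟨n1, n2⟩ := an_ne A.Vz (α := 0) (β := ω) (by
    rw [zero_sub, Real.sin_neg]; exact neg_ne_zero.2 hω)
  rw [an_zero] at n1 n2
  have h4 := A.ori.sign (w := an V z ω) (V := V) (by rw [dist_comm]; exact dist_an A.Vz ω) A.Vz
    n1 n2 hτ hi
  have e := sg_an A.Vz ω 0
  rw [an_zero, zero_sub, Real.sin_neg] at e
  rw [e] at h4
  linarith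

/-- **Zones at an alpha point.** -/
theorem zone (A : Vx U T z V x x' c d k k' ρ σ) (h : Irr U T) {φ ψ : ℝ}
    (hg : Arc T V (an V z φ) {x, k}) (hg' : Arc T V (an V z ψ) {x', k'}) :
    ρ * σ * (Real.sin φ * Real.sin ψ * Real.sin (ψ - φ)) < 0 := by
  obtain ⟨μ, hμ⟩ := h.exists_ori A.hDV (dist_an A.Vz φ)
  obtain ⟨μ', hμ'⟩ := h.exists_ori A.hDV.swap (dist_an A.Vz ψ)
  have s1 := A.side_sign h hg hμ
  have s2 := A.swap.side_sign h hg' hμ'
  have hφ : Real.sin φ ≠ 0 := by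
    intro h0; rw [h0, mul_zero] at s1; exact lt_irrefl _ s1
  -- the ray of `x'`
  obtain ⟨s, hs, r1, -⟩ := h.d0_sign A.hDV.swap hg
  have ip1 : ip (s * (Complex.I * (an V z φ - V))) (z - V) = -(s * Real.sin φ) := by
    rw [ip_smul, ip_I]
    have := cr_an A.Vz φ 0
    rw [an_zero, zero_sub, Real.sin_neg] at this
    rw [this]; ring
  have ip2 : ip (s * (Complex.I * (an V z φ - V))) (an V z ψ - V) = s * Real.sin (ψ - φ) := by
    rw [ip_smul, ip_I, cr_an A.Vz]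
  have hs0 : s ≠ 0 := by rcases hs with rfl | rfl <;> norm_num
  -- the side of `S(z)`
  have t1 : 0 < σ * s * Real.sin φ := by
    by_contra hcon
    have hne : σ * s * Real.sin φ ≠ 0 := by
      refine mul_ne_zero (mul_ne_zero ?_ hs0) hφ
      rcases A.ori with ⟨rfl, -⟩ | ⟨rfl, -⟩ <;> norm_num
    have hlt : σ * s * Real.sin φ < 0 := lt_of_le_of_ne (not_lt.1 hcon) hne
    rcases A.ori with ⟨rfl, hS⟩ | ⟨rfl, hS⟩
    · obtain ⟨r, h1, h2, h3⟩ := (r1.and ((ray_in A.hV (by rw [ip1]; linarith)).and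
        ((tendsto_ray V _).eventually hS))).exists
      exact (h3.2 h2) (subset_closure h1)
    · obtain ⟨r, h1, h2, h3⟩ := (r1.and ((ray_out A.hV (by rw [ip1]; linarith)).and
        ((tendsto_ray V _).eventually hS))).exists
      exact (h3.1 h2) (subset_closure h1)
  -- the side of `S(g')`
  have hne2 : Real.sin (ψ - φ) ≠ 0 := by
    have := h.cr_arcs_ne A.hDV hg hg'
    rw [cr_an A.Vz] at this
    intro h0
    apply this
    rw [show φ - ψ = -(ψ - φ) by ring, Real.sin_neg, h0, neg_zero]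
  have t2 : 0 < μ' * s * Real.sin (ψ - φ) := by
    by_contra hcon
    have hne : μ' * s * Real.sin (ψ - φ) ≠ 0 := by
      refine mul_ne_zero (mul_ne_zero ?_ hs0) hne2
      rcases hμ' with ⟨rfl, -⟩ | ⟨rfl, -⟩ <;> norm_num
    have hlt : μ' * s * Real.sin (ψ - φ) < 0 := lt_of_le_of_ne (not_lt.1 hcon) hne
    have hVg : dist V (an V z ψ) = 1 := by rw [dist_comm]; exact dist_an A.Vz ψ
    rcases Ori.sd_center h hg' hμ' with ⟨rfl, hS⟩ | ⟨rfl, hS⟩
    · obtain ⟨r, h1, h2, h3⟩ := (r1.and ((ray_out hVg (by rw [ip2]; linarith)).and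
        ((tendsto_ray V _).eventually hS))).exists
      exact (h3.1 h2) (subset_closure h1)
    · obtain ⟨r, h1, h2, h3⟩ := (r1.and ((ray_in hVg (by rw [ip2]; linarith)).and
        ((tendsto_ray V _).eventually hS))).exists
      exact (h3.2 h2) (subset_closure h1)
  have hss : s * s = 1 := by rcases hs with rfl | rfl <;> norm_num
  have hmm : μ' * μ' = 1 := hμ'.sq
  have h5 : (σ * s * Real.sin φ) * (μ' * s * Real.sin (ψ - φ)) * (μ' * ρ * Real.sin ψ) < 0 :=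
    mul_neg_of_pos_of_neg (mul_pos t1 t2) s2
  have e : (σ * s * Real.sin φ) * (μ' * s * Real.sin (ψ - φ)) * (μ' * ρ * Real.sin ψ) =
      (s * s) * (μ' * μ') * (ρ * σ * (Real.sin φ * Real.sin ψ * Real.sin (ψ - φ))) := by ring
  rw [e, hss, hmm] at h5
  linarith

/-- **The owner of `x | k'` is after the exact `xk`-points.** -/
theorem owner_after (A : Vx U T z V x x' c d k k' ρ σ) (h : Irr U T) {φ ω τ : ℝ}
    (hg : Arc T V (an V z φ) {x, k}) (hω : Real.sin ω ≠ 0) (hτ : τ = 1 ∨ τ = -1)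
    (hi : ∀ᶠ t : ℝ in 𝓝[>] 0, x ∈ Pal U (hb (an V z ω) V τ t)) :
    ρ * σ * (Real.sin φ * Real.sin ω * Real.sin (ω - φ)) < 0 := by
  obtain ⟨μ, hμ⟩ := h.exists_ori A.hDV (dist_an A.Vz φ)
  have s1 := A.side_sign h hg hμ
  have s2 := A.owner_sign hω hτ hi
  have s3 := h.exact_sign A.Vz hg hμ hτ hi
  have hττ : τ * τ = 1 := by rcases hτ with rfl | rfl <;> norm_num
  have e0 : Real.sin (φ - ω) = -Real.sin (ω - φ) := by
    rw [show φ - ω = -(ω - φ) by ring, Real.sin_neg]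
  have h5 : (σ * τ * Real.sin ω) * (μ * τ * Real.sin (φ - ω)) * (μ * ρ * Real.sin φ) > 0 :=
    mul_pos_of_neg_of_neg (mul_neg_of_pos_of_neg s2 s3) s1
  have e : (σ * τ * Real.sin ω) * (μ * τ * Real.sin (φ - ω)) * (μ * ρ * Real.sin φ) =
      (τ * τ) * (μ * μ) * (-(ρ * σ * (Real.sin φ * Real.sin ω * Real.sin (ω - φ)))) := by
    rw [e0]; ring
  rw [e, hττ, hμ.sq] at h5
  linarith

/-- **The owner of `x | k'` is before the exact `x'k'`-points.** -/
theorem owner_before (A : Vx U T z V x x' c d k k' ρ σ) (h : Irr U T) {ψ ω τ : ℝ}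
    (hg : Arc T V (an V z ψ) {x', k'}) (hω : Real.sin ω ≠ 0) (hτ : τ = 1 ∨ τ = -1)
    (hi : ∀ᶠ t : ℝ in 𝓝[>] 0, x ∈ Pal U (hb (an V z ω) V τ t))
    (hk : ∀ᶠ t : ℝ in 𝓝[>] 0, k' ∈ Pal U (hb (an V z ω) V τ t)) :
    ρ * σ * (Real.sin ω * Real.sin ψ * Real.sin (ψ - ω)) < 0 := by
  obtain ⟨μ, hμ⟩ := h.exists_ori A.hDV.swap (dist_an A.Vz ψ)
  have s1 := A.swap.side_sign h hg hμ
  have s2 := A.owner_sign hω hτ hi
  have hμ2 : Ori U V (an V z ψ) k' x' (-μ) := by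
    rcases hμ with ⟨rfl, hs⟩ | ⟨rfl, hs⟩
    · exact Or.inr ⟨rfl, hs⟩
    · exact Or.inl ⟨by norm_num, hs⟩
  have s3 := h.exact_sign A.Vz (by rwa [pair_comm] : Arc T V (an V z ψ) {k', x'}) hμ2 hτ hk
  have hττ : τ * τ = 1 := by rcases hτ with rfl | rfl <;> norm_num
  have h5 : (σ * τ * Real.sin ω) * (-μ * τ * Real.sin (ψ - ω)) * (μ * ρ * Real.sin ψ) > 0 :=
    mul_pos_of_neg_of_neg (mul_neg_of_pos_of_neg s2 s3) s1
  have e : (σ * τ * Real.sin ω) * (-μ * τ * Real.sin (ψ - ω)) * (μ * ρ * Real.sin ψ) =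
      (τ * τ) * (μ * μ) * (-(ρ * σ * (Real.sin ω * Real.sin ψ * Real.sin (ψ - ω)))) := by ring
  rw [e, hττ, hμ.sq] at h5
  linarith

/-- **The owner of `x' | k` is before the exact `x'k'`-points.** -/
theorem owner_after' (A : Vx U T z V x x' c d k k' ρ σ) (h : Irr U T) {ψ ω τ : ℝ}
    (hg : Arc T V (an V z ψ) {x', k'}) (hω : Real.sin ω ≠ 0) (hτ : τ = 1 ∨ τ = -1)
    (hi : ∀ᶠ t : ℝ in 𝓝[>] 0, x' ∈ Pal U (hb (an V z ω) V τ t)) :
    ρ * σ * (Real.sin ω * Real.sin ψ * Real.sin (ψ - ω)) < 0 := by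
  have := A.swap.owner_after h hg hω hτ hi
  have e0 : Real.sin (ω - ψ) = -Real.sin (ψ - ω) := by
    rw [show ω - ψ = -(ψ - ω) by ring, Real.sin_neg]
  rw [e0] at this
  linarith

/-- **The owner of `x' | k` is after the exact `xk`-points.** -/
theorem owner_before' (A : Vx U T z V x x' c d k k' ρ σ) (h : Irr U T) {φ ω τ : ℝ}
    (hg : Arc T V (an V z φ) {x, k}) (hω : Real.sin ω ≠ 0) (hτ : τ = 1 ∨ τ = -1)
    (hi : ∀ᶠ t : ℝ in 𝓝[>] 0, x' ∈ Pal U (hb (an V z ω) V τ t))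
    (hk : ∀ᶠ t : ℝ in 𝓝[>] 0, k ∈ Pal U (hb (an V z ω) V τ t)) :
    ρ * σ * (Real.sin φ * Real.sin ω * Real.sin (ω - φ)) < 0 := by
  have := A.swap.owner_before h hg hω hτ hi hk
  have e0 : Real.sin (φ - ω) = -Real.sin (ω - φ) := by
    rw [show φ - ω = -(ω - φ) by ring, Real.sin_neg]
  rw [e0] at this
  linarith

/-- **`z` is an end of an exact `x'k'`-arc of `S(V)`** on the half branch `τ` (delta and beta): if
there is an exact `xk`-point of `S(V)` then `τ = ρ σ`. -/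
theorem z_end' (A : Vx U T z V x x' c d k k' ρ σ) (h : Irr U T) {φ τ : ℝ}
    (hg : Arc T V (an V z φ) {x, k}) (hτ : τ = 1 ∨ τ = -1)
    (he : ∃ᶠ t : ℝ in 𝓝[>] 0, Arc T V (hb V z τ t) {x', k'}) : τ = ρ * σ := by
  obtain ⟨μ, hμ⟩ := h.exists_ori A.hDV (dist_an A.Vz φ)
  have s1 := A.side_sign h hg hμ
  have hφ : Real.sin φ ≠ 0 := by
    intro h0; rw [h0, mul_zero] at s1; exact lt_irrefl _ s1
  have hpos : 0 < Real.sin φ * Real.sin φ := mul_self_pos.2 hφ
  have hcont : Continuous fun t : ℝ => Real.sin φ * Real.sin (φ - τ * t) := by fun_prop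
  have hev : ∀ᶠ t : ℝ in 𝓝[>] 0, 0 < Real.sin φ * Real.sin (φ - τ * t) := by
    have h1 := hcont.tendsto 0
    simp only [mul_zero, sub_zero] at h1
    exact (h1.eventually (lt_mem_nhds hpos)).filter_mono nhdsWithin_le_nhds
  obtain ⟨t, ht, h2, h3⟩ := (he.and_eventually (hev.and (ev_small (δ := 1) one_pos))).exists
  rw [hb_eq_an] at ht
  have h4 := A.zone h hg ht
  have hst : 0 < Real.sin t := Real.sin_pos_of_pos_of_lt_pi h3.1 (by linarith [Real.pi_gt_three])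
  have e1 : Real.sin (τ * t) = τ * Real.sin t := by
    rcases hτ with rfl | rfl
    · rw [one_mul, one_mul]
    · rw [show (-1 : ℝ) * t = -t by ring, Real.sin_neg]; ring
  have e2 : Real.sin (τ * t - φ) = -Real.sin (φ - τ * t) := by
    rw [show τ * t - φ = -(φ - τ * t) by ring, Real.sin_neg]
  rw [e1, e2] at h4
  have h5 : 0 < ρ * σ * τ := by
    by_contra hcon
    push Not at hcon
    have h6 : ρ * σ * (Real.sin φ * (τ * Real.sin t) * -Real.sin (φ - τ * t)) =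
        -(ρ * σ * τ) * (Real.sin t * (Real.sin φ * Real.sin (φ - τ * t))) := by ring
    rw [h6] at h4
    have h7 : 0 ≤ -(ρ * σ * τ) * (Real.sin t * (Real.sin φ * Real.sin (φ - τ * t))) :=
      mul_nonneg (by linarith) (mul_pos hst h2).le
    linarith
  obtain ⟨q1, q2⟩ := A.sq
  rcases hτ with rfl | rfl <;> rcases A.hρ with rfl | rfl <;>
    rcases A.ori with ⟨rfl, -⟩ | ⟨rfl, -⟩ <;>
      first
        | (exfalso; norm_num at h5; done)
        | norm_num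

/-- **`z` is an end of an exact `xk`-arc of `S(V)`** on the half branch `τ`: `τ = -ρ σ` -/
theorem z_end (A : Vx U T z V x x' c d k k' ρ σ) (h : Irr U T) {ψ τ : ℝ}
    (hg : Arc T V (an V z ψ) {x', k'}) (hτ : τ = 1 ∨ τ = -1)
    (he : ∃ᶠ t : ℝ in 𝓝[>] 0, Arc T V (hb V z τ t) {x, k}) : τ = -(ρ * σ) := by
  have := A.swap.z_end' h hg hτ he
  rw [this]; ring

end Vx

end Vale.Agent.P032.Six
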